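import Vale.Agent.P092.H631.P2Prox

/-!
P092, TEAM P, TRACKS 2 and 3, row [P2-PROX] (helper631), part 5: the two notions of opposition of
`CL/Defs` (points: not in a common maximal space; maximal spaces: no common point) are `OppS`, and
the fields `prox1`, `prox2` of `CL.Geo`.
-/

set_option linter.all false

open Matrix Module Set Topology Filter

namespace Vale.Agent.P092.H631.P2

open Vale.Agent.P092.H303 (FormGroup Idx hyp)
open Vale.Agent.P092.H714.Cl
open Vale.Agent.P092.H370.Po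
open Vale.Agent.P092.H514.NI (Covol)

section alg

variable {n : Type} [Fintype n] [DecidableEq n] {k : Type} [Field k]
  {σ : k →+* k} {ε : k} {J : Matrix n n k} {r : ℕ}

/-- a nonempty family of maximal spaces -/
theorem exists_maxS (hW : WI σ J r) : Nonempty (SGr σ J r) := by
  obtain ⟨Y, hY, hd⟩ := hW.1
  exact ⟨SGr.mk' Y hY hd⟩

/-- two orthogonal points are in a common maximal space -/
theorem common_max (hF : Frm σ ε J) (hW : WI σ J r) (hr : 2 ≤ r) {x y : SGr σ J 1}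
    (h : Col x y) : ∃ l : SGr σ J r, Inc x l ∧ Inc y l := by
  obtain ⟨l₀⟩ := exists_maxS hW
  have hs : Sing σ J (x.S ⊔ y.S) := by
    unfold Sing
    rw [ort_sup_left, ort_sup_right, ort_sup_right]
    exact ⟨⟨x.sing, h⟩, ⟨fun a ha b hb => hF.symm_zero (h b hb a ha), y.sing⟩⟩
  have hd : finrank k ↥(x.S ⊔ y.S) ≤ r := by
    have h1 := Submodule.finrank_add_le_finrank_add_finrank x.S y.S
    rw [x.dim, y.dim] at h1
    omega
  obtain ⟨Z, hZ1, hZ2, hZ3⟩ := exists_above hF hs l₀.sing hd l₀.dim.ge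
  exact ⟨SGr.mk' Z hZ2 hZ3, le_sup_left.trans hZ1, le_sup_right.trans hZ1⟩

/-- **opposite points** -/
theorem opp1_iff_S (hF : Frm σ ε J) (hW : WI σ J r) (hr : 2 ≤ r) {x y : SGr σ J 1} :
    (∀ l : SGr σ J r, Inc x l → ¬ Inc y l) ↔ OppS x y := by
  constructor
  · intro h
    by_contra hn
    obtain ⟨P, h1, h2⟩ := not_opp_iff.1 hn
    rw [inc_iff_eq] at h1
    subst h1
    obtain ⟨l, h3, h4⟩ := common_max hF hW hr h2
    exact h l h3 h4
  · intro h l h1 h2
    refine not_opp_iff.2 ⟨x, le_rfl, fun a ha b hb => l.sing a (h1 ha) b (h2 hb)⟩ h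

/-- **opposite maximal spaces** -/
theorem opp2_iff_S (hF : Frm σ ε J) (hW : WI σ J r) {l l' : SGr σ J r} :
    (∀ x : SGr σ J 1, Inc x l → ¬ Inc x l') ↔ OppS l l' := by
  constructor
  · intro h
    by_contra hn
    obtain ⟨P, h1, h2⟩ := not_opp_iff.1 hn
    refine h P h1 fun v hv => ?_
    by_contra hvl
    have hvv : hf σ J v v = 0 := P.sing v hv v hv
    have h3 := hW.2 _ (sing_sup_span hF l'.sing hvv fun x hx => hF.symm_zero (h2 v hv x hx))
    rw [finrank_sup_span hvl, l'.dim] at h3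
    omega
  · intro h x h1 h2
    exact not_opp_iff.2 ⟨x, h1, h2.col⟩ h

end alg

section main

variable {ι : Type} [Fintype ι] [DecidableEq ι] {k : Type} [NontriviallyNormedField k]
  [ProperSpace k] {σ : k →+* k} {ε : k} {r : ℕ} {J₀ : Matrix ι ι k}

/-- **the field `prox1` of `CL.Geo`** -/
theorem prox1_geo (hF : Frm σ ε (hyp r ε J₀)) (hσ : Continuous σ)
    (hW : WI σ (hyp r ε J₀) r) (hr : 2 ≤ r) (Γ : Subgroup (FormGroup σ (hyp r ε J₀)))
    (hΓ : Covol Γ) (z : SGr σ (hyp r ε J₀) 1) (D : Set (SGr σ (hyp r ε J₀) 1))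
    (hD : IsCompact D)
    (hDo : ∀ y ∈ D, ∀ l : SGr σ (hyp r ε J₀) r, Inc y l → ¬ Inc z l)
    (U : Set (SGr σ (hyp r ε J₀) 1)) (hU : IsOpen U) (hUn : U.Nonempty) :
    ∃ γ ∈ Γ, ∀ y ∈ D, γ • y ∈ U := by
  haveI : LocallyCompactSpace (FormGroup σ (hyp r ε J₀)) := H303.locallyCompact_formGroup hσ _
  haveI : SecondCountableTopology (FormGroup σ (hyp r ε J₀)) := H303.secondCountable_formGroup _
  exact proxS hF hσ (le_trans one_le_two hr) Γ hΓ z D hD
    (fun y hy => (opp1_iff_S hF hW hr).1 (hDo y hy)) U hU hUn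

/-- **the field `prox2` of `CL.Geo`** -/
theorem prox2_geo (hF : Frm σ ε (hyp r ε J₀)) (hσ : Continuous σ)
    (hW : WI σ (hyp r ε J₀) r) (Γ : Subgroup (FormGroup σ (hyp r ε J₀)))
    (hΓ : Covol Γ) (z : SGr σ (hyp r ε J₀) r) (D : Set (SGr σ (hyp r ε J₀) r))
    (hD : IsCompact D)
    (hDo : ∀ y ∈ D, ∀ x : SGr σ (hyp r ε J₀) 1, Inc x y → ¬ Inc x z)
    (U : Set (SGr σ (hyp r ε J₀) r)) (hU : IsOpen U) (hUn : U.Nonempty) :
    ∃ γ ∈ Γ, ∀ y ∈ D, γ • y ∈ U := by
  haveI : LocallyCompactSpace (FormGroup σ (hyp r ε J₀)) := H303.locallyCompact_formGroup hσ _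
  haveI : SecondCountableTopology (FormGroup σ (hyp r ε J₀)) := H303.secondCountable_formGroup _
  exact proxS hF hσ le_rfl Γ hΓ z D hD
    (fun y hy => (opp2_iff_S hF hW).1 (hDo y hy)) U hU hUn

end main

end Vale.Agent.P092.H631.P2
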