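import Vale.Agent.P092.SP.Defs

/-!
P092, TEAM P, row [P-0A] (helper631): two isotropic lines through a point, two points on a line.
-/

set_option linter.all false

open Set

namespace Vale.Agent.P092.H631.P0

open Vale.Agent.P092.RC (YY)
open Vale.Agent.P092.SP4

section two

variable {k : Type} [NontriviallyNormedField k]

/-- the isotropic line of two orthogonal vectors -/
theorem exists_LL {v y : Fin 4 → k} (hv : v ≠ 0) (hy : y ∉ Submodule.span k {v})
    (h : om v y = 0) : ∃ l : LL k, l.1.1 = Submodule.span k {v, y} := by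
  have hli : LinearIndependent k ![v, y] := by
    rw [LinearIndependent.pair_iff' hv]
    intro a ha
    exact hy (Submodule.mem_span_singleton.2 ⟨a, ha⟩)
  have hr : Set.range ![v, y] = {v, y} := by simp [Set.pair_comm]
  have h2 : Module.finrank k (Submodule.span k {v, y} : Submodule k (Fin 4 → k)) = 2 := by
    rw [← hr, finrank_span_eq_card hli, Fintype.card_fin]
  refine ⟨⟨⟨Submodule.span k {v, y}, h2⟩, ?_⟩, rfl⟩
  intro x hx z hz
  obtain ⟨a, b, rfl⟩ := Submodule.mem_span_pair.1 hx
  obtain ⟨a', b', rfl⟩ := Submodule.mem_span_pair.1 hz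
  have h' : om y v = 0 := by rw [om_swap, h, neg_zero]
  simp only [om_add_left, om_add_right, om_smul_left, om_smul_right, om_self, h, h']
  ring

/-- a vector outside a smaller subspace -/
theorem exists_out {W W' : Submodule k (Fin 4 → k)}
    (h : Module.finrank k W' < Module.finrank k W) : ∃ y ∈ W, y ∉ W' := by
  by_contra hc
  push Not at hc
  have : W ≤ W' := hc
  exact absurd (Submodule.finrank_mono this) (not_le.2 h)

/-- two different lines through a point -/
theorem two_lines (c : YY k 3) : ∃ l l' : LL k, on c l ∧ on c l' ∧ l ≠ l' := by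
  induction c using Projectivization.ind with
  | h v hv =>
    let φ : (Fin 4 → k) →ₗ[k] k :=
      { toFun := fun y => om v y
        map_add' := fun y y' => om_add_right v y y'
        map_smul' := fun a y => om_smul_right a v y }
    have hφ : φ ≠ 0 := by
      obtain ⟨y, hy⟩ := om_nondeg hv
      intro h
      exact hy (LinearMap.congr_fun h y)
    have hker : 3 ≤ Module.finrank k (LinearMap.ker φ) := by
      have h1 := LinearMap.finrank_range_add_finrank_ker φ
      have h2 : Module.finrank k (LinearMap.range φ) ≤ 1 := by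
        have := Submodule.finrank_le (LinearMap.range φ)
        rwa [Module.finrank_self] at this
      rw [Module.finrank_fin_fun] at h1
      omega
    have e1 : Module.finrank k (Submodule.span k {v} : Submodule k (Fin 4 → k)) = 1 :=
      finrank_span_singleton hv
    obtain ⟨y, hy, hyv⟩ := exists_out (W := LinearMap.ker φ) (W' := Submodule.span k {v})
      (by omega)
    obtain ⟨l, hl⟩ := exists_LL hv hyv (LinearMap.mem_ker.1 hy)
    have e2 : Module.finrank k l.1.1 = 2 := l.1.2
    obtain ⟨y', hy', hyl⟩ := exists_out (W := LinearMap.ker φ) (W' := l.1.1) (by omega)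
    have hvl : v ∈ l.1.1 := by rw [hl]; exact Submodule.subset_span (by simp)
    have hyv' : y' ∉ Submodule.span k {v} := by
      intro h
      exact hyl ((Submodule.span_le.2 (by simpa using hvl)) h)
    obtain ⟨l', hl'⟩ := exists_LL hv hyv' (LinearMap.mem_ker.1 hy')
    refine ⟨l, l', (on_mk hv).2 hvl, (on_mk hv).2 ?_, ?_⟩
    · rw [hl']; exact Submodule.subset_span (by simp)
    · rintro rfl
      apply hyl
      rw [hl']
      exact Submodule.subset_span (by simp)

/-- two different points on a line -/
theorem two_points (l : LL k) : ∃ c c' : YY k 3, on c l ∧ on c' l ∧ c ≠ c' := by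
  have e2 : Module.finrank k l.1.1 = 2 := l.1.2
  obtain ⟨v, hv, hv0⟩ := exists_out (W := l.1.1) (W' := ⊥) (by rw [finrank_bot]; omega)
  have hv0' : v ≠ 0 := fun h => hv0 (by rw [h]; exact zero_mem _)
  have e1 : Module.finrank k (Submodule.span k {v} : Submodule k (Fin 4 → k)) = 1 :=
    finrank_span_singleton hv0'
  obtain ⟨y, hy, hyv⟩ := exists_out (W := l.1.1) (W' := Submodule.span k {v}) (by omega)
  have hy0 : y ≠ 0 := fun h => hyv (by rw [h]; exact zero_mem _)
  refine ⟨Projectivization.mk k v hv0', Projectivization.mk k y hy0, (on_mk hv0').2 hv,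
    (on_mk hy0).2 hy, ?_⟩
  intro h
  obtain ⟨a, ha⟩ := (Projectivization.mk_eq_mk_iff' k v y hv0' hy0).1 h
  apply hyv
  have ha0 : a ≠ 0 := by
    rintro rfl
    rw [zero_smul] at ha
    exact hv0' ha.symm
  refine Submodule.mem_span_singleton.2 ⟨a⁻¹, ?_⟩
  rw [← ha, smul_smul, inv_mul_cancel₀ ha0, one_smul]

end two

end Vale.Agent.P092.H631.P0
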