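import Vale.Agent.P092.H631.P0Dat
import Vale.Agent.P092.H631.P0Two

/-!
P092, TEAM P, row [P-0A] (helper631): [0] in the letters of `SP/Defs`. `legC_of`: families with
mass one, (I1) and the locality inputs give a leg of commuting *-homomorphisms; `zero_td`:
ultrametric fields.
-/

set_option linter.all false

open scoped InnerProductSpace
open ContinuousLinearMap Set MeasureTheory Filter Topology

namespace Vale.Agent.P092.H631.P0

open Vale.Agent.P092.RC (Cm Moore GG PG YY y0)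
open Vale.Agent.P092.H828.P (Loc Loc0 Dis)
open Vale.Agent.P092.H232 (Nin)
open Vale.Agent.P092.SP
open Vale.Agent.P092.SP4

section leg

variable {k : Type} [NontriviallyNormedField k] [ProperSpace k] [MeasurableSpace k]
  {E Γ K : Type} [Group E] [TopologicalSpace E] [Group Γ] [NormedAddCommGroup K]
  [InnerProductSpace ℂ K] [CompleteSpace K]
  {Y₁ Y₂ : Type} [TopologicalSpace Y₁] [CompactSpace Y₁] [MulAction (S4 k) Y₁]
  [ContinuousConstSMul (S4 k) Y₁] [TopologicalSpace Y₂] [CompactSpace Y₂]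
  [MulAction (S4 k) Y₂] [ContinuousConstSMul (S4 k) Y₂]
  {μ : Measure k} {w : kˣ} {𝒰 : Ultrafilter ℕ} {ι : S4 k →* E} {a : E →* PG k 4}
  {π : E →* (K →L[ℂ] K)} {lam : Γ →* (K →L[ℂ] K)} {W : Set (K →L[ℂ] K)} {Ω : K}
  {m : Set Γ → (K →L[ℂ] K)} {q : Γ → S4 k}

/-- a multiplicative letter of mass one as a *-homomorphism -/
theorem exists_hom {U : C(Y₁, ℂ) →ₗ[ℂ] (K →L[ℂ] K)} (hU : SP.UL U 1) (hd : Dis U U) :
    ∃ F : C(Y₁, ℂ) →⋆ₐ[ℂ] (K →L[ℂ] K), ∀ f, F f = U f := by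
  have h := ul_of_sp hU
  have hm : ∀ f f', U f * U f' = ((1 : ℝ) : ℂ) • U (f * f') := fun f f' =>
    h.mul_of_disj h hd f f'
  refine ⟨h.hom one_ne_zero hm, fun f => ?_⟩
  rw [h.hom_apply, Complex.ofReal_one, inv_one, one_smul]

/-- a family of multiplicative letters of mass one -/
theorem hfam_of {X : Type} [MulAction (S4 k) X] {b : S4 k} {v0 : X}
    {NA : ℝ → ℝ → Set Y₁ → Set Γ} {U : X → (C(Y₁, ℂ) →ₗ[ℂ] (K →L[ℂ] K))}
    (h : UFam 𝒰 b v0 ι π lam W m q NA U 1) {F : X → (C(Y₁, ℂ) →⋆ₐ[ℂ] (K →L[ℂ] K))}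
    (hF : ∀ v f, F v f = U v f) : HFam 𝒰 b v0 ι π lam W m q NA F where
  cm v f := by rw [hF]; exact h.cm v f
  cov γ v f := by rw [hF, hF]; exact h.cov γ v f
  pcov g v f := by rw [hF, hF]; exact h.pcov g v f
  dom := by
    intro g u A hA hu ζ ε hε
    obtain ⟨R, hR⟩ := h.dom g u A hA hu ζ ε hε
    refine ⟨R, fun T hT => ?_⟩
    filter_upwards [hR T hT] with t ht
    rw [hF]
    exact ht
  agr := by
    intro v v' hv ξ hξ
    refine h.agr one_ne_zero v v' hv ξ fun f => ?_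
    rw [← hF, ← hF]
    exact hξ f

variable {NA₁ : ℝ → ℝ → Set Y₁ → Set Γ} {NA₂ : ℝ → ℝ → Set Y₂ → Set Γ} {IT : Y₁ → Y₂ → Prop}
  {U : YY k 3 → (C(Y₁, ℂ) →ₗ[ℂ] (K →L[ℂ] K))} {V : LL k → (C(Y₂, ℂ) →ₗ[ℂ] (K →L[ℂ] K))}

/-- **[P-0A] in the letters of `SP/Defs`**, from the exact orthogonality of the letters and the
second locality. -/
theorem legC_of (hb : PB μ w 𝒰 ι a π lam W Ω m q)
    (he : UFam 𝒰 (B1 w) (y0 : YY k 3) ι π lam W m q NA₁ U 1)
    (hf : UFam 𝒰 (B2 w) (l0 : LL k) ι π lam W m q NA₂ V 1)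
    (i1 : ∀ c l, on c l → ∀ f g, Nin IT f g → U c f * V l g = 0)
    (dE : ∀ c, Dis (U c) (U c)) (dF : ∀ l, Dis (V l) (V l))
    (loc0 : ∀ c l, on c l → Loc0 (U c) (U c) (V l)) :
    ∃ Ec F, LegC IT μ w 𝒰 ι a π lam W Ω m q NA₁ NA₂ Ec F ∧ (∀ c f, Ec c f = U c f) ∧
      ∀ l g, F l g = V l g := by
  choose Ec hEc using fun c => exists_hom (he.ul c) (dE c)
  choose F hF using fun l => exists_hom (hf.ul l) (dF l)
  refine ⟨Ec, F, ⟨hb, hfam_of he hEc, hfam_of hf hF, ?_⟩, hEc, hF⟩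
  intro c l hcl
  refine ⟨fun f g => ?_, fun f g hn => ?_⟩
  · have h := (ul_of_sp (he.ul c)).comm_of_local one_ne_zero (V l g)
      (fun f f' hd => loc0 c l hcl f f' hd g) f
    change Ec c f * F l g = F l g * Ec c f
    rw [hEc, hF]
    exact h.symm
  · rw [hEc, hF]
    exact i1 c l hcl f g hn

/-- the locality inputs give [0] -/
theorem legC_of_loc (hb : PB μ w 𝒰 ι a π lam W Ω m q)
    (he : UFam 𝒰 (B1 w) (y0 : YY k 3) ι π lam W m q NA₁ U 1)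
    (hf : UFam 𝒰 (B2 w) (l0 : LL k) ι π lam W m q NA₂ V 1)
    (i1 : ∀ c l, on c l → ∀ f g, Nin IT f g → U c f * V l g = 0)
    (locE : ∀ c l l', on c l → on c l' → Loc (U c) (U c) (V l) (V l'))
    (locF : ∀ c c' l, on c l → on c' l → Loc (V l) (V l) (U c) (U c'))
    (loc0 : ∀ c l, on c l → Dis (U c) (U c) → Loc0 (U c) (U c) (V l)) :
    ∃ Ec F, LegC IT μ w 𝒰 ι a π lam W Ω m q NA₁ NA₂ Ec F ∧ (∀ c f, Ec c f = U c f) ∧
      ∀ l g, F l g = V l g := by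
  have dE : ∀ c, Dis (U c) (U c) := by
    intro c
    obtain ⟨l, l', hl, hl', hne⟩ := two_lines c
    exact H828.P.dis_of_loc (ul_of_sp (he.ul c)) one_ne_zero (ul_of_sp (hf.ul l)).star
      (ul_of_sp (hf.ul l')).star (locE c l l' hl hl') (locE c l l' hl hl')
      (hf.agr one_ne_zero l l' hne)
  have dF : ∀ l, Dis (V l) (V l) := by
    intro l
    obtain ⟨c, c', hc, hc', hne⟩ := two_points l
    exact H828.P.dis_of_loc (ul_of_sp (hf.ul l)) one_ne_zero (ul_of_sp (he.ul c)).star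
      (ul_of_sp (he.ul c')).star (locF c c' l hc hc') (locF c c' l hc hc')
      (he.agr one_ne_zero c c' hne)
  exact legC_of hb he hf i1 dE dF fun c l hcl => loc0 c l hcl (dE c)

/-- **[P-0A], ultrametric field, any target.** -/
theorem legC_td [T2Space Y₁] [T2Space Y₂] [TotallyDisconnectedSpace Y₁]
    [TotallyDisconnectedSpace Y₂] (hI : IsClosed {q : Y₁ × Y₂ | IT q.1 q.2})
    (huniq : ∀ x x', x ≠ x' → ∀ z z', IT x z → IT x' z → IT x z' → IT x' z' → z = z')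
    (hb : PB μ w 𝒰 ι a π lam W Ω m q)
    (he : UFam 𝒰 (B1 w) (y0 : YY k 3) ι π lam W m q NA₁ U 1)
    (hf : UFam 𝒰 (B2 w) (l0 : LL k) ι π lam W m q NA₂ V 1)
    (i1 : ∀ c l, on c l → ∀ f g, Nin IT f g → U c f * V l g = 0) :
    ∃ Ec F, LegC IT μ w 𝒰 ι a π lam W Ω m q NA₁ NA₂ Ec F ∧ (∀ c f, Ec c f = U c f) ∧
      ∀ l g, F l g = V l g := by
  have hI' : IsClosed {q : Y₂ × Y₁ | IT q.2 q.1} := hI.preimage continuous_swap
  have huniq' : ∀ z z' : Y₂, z ≠ z' → ∀ x x', IT x z → IT x z' → IT x' z → IT x' z' →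
      x = x' := by
    intro z z' hz x x' h1 h2 h3 h4
    by_contra hx
    exact hz (huniq x x' hx z z' h1 h3 h2 h4)
  have i1' : ∀ c l, on c l → ∀ v u, Nin (fun z x => IT x z) v u → V l v * U c u = 0 := by
    intro c l hcl v u hn
    exact i1_symm (ul_of_sp (he.ul c)) (ul_of_sp (hf.ul l)) (i1 c l hcl) u v
      (fun x hx z hz => hn z hz x hx)
  refine legC_of_loc hb he hf i1 ?_ ?_ ?_
  · intro c l l' hl hl'
    exact loc_td hI huniq (ul_of_sp (he.ul c)) (ul_of_sp (hf.ul l)) (ul_of_sp (hf.ul l'))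
      (i1 c l hl) (i1 c l' hl')
  · intro c c' l hc hc'
    exact loc_td (J := fun z x => IT x z) hI' huniq' (ul_of_sp (hf.ul l)) (ul_of_sp (he.ul c))
      (ul_of_sp (he.ul c')) (i1' c l hc) (i1' c' l hc')
  · intro c l hcl hd
    exact loc0_td hI huniq (ul_of_sp (he.ul c)) (ul_of_sp (hf.ul l)) (i1 c l hcl) hd

/-- two different points are on at most one line -/
theorem on_uniq {x x' : YY k 3} (h : x ≠ x') {l l' : LL k} (h1 : on x l) (h2 : on x' l)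
    (h3 : on x l') (h4 : on x' l') : l = l' :=
  Subtype.ext (H495.uniq_line h h1 h2 h3 h4)

variable [IsUltrametricDist k]

omit [MeasurableSpace k] in
theorem td_LL : TotallyDisconnectedSpace (LL k) :=
  inferInstanceAs (TotallyDisconnectedSpace
    {l : H100.Gr.Gr k (Fin 4) 2 // ∀ x ∈ l.1, ∀ y ∈ l.1, om x y = 0})

variable {U11 : YY k 3 → (C(YY k 3, ℂ) →ₗ[ℂ] (K →L[ℂ] K))} {p11 : ℝ}
  {U12 : YY k 3 → (C(LL k, ℂ) →ₗ[ℂ] (K →L[ℂ] K))} {p12 : ℝ}
  {U21 : LL k → (C(YY k 3, ℂ) →ₗ[ℂ] (K →L[ℂ] K))} {p21 : ℝ}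
  {U22 : LL k → (C(LL k, ℂ) →ₗ[ℂ] (K →L[ℂ] K))} {p22 : ℝ}

/-- **[P-0], straight, ultrametric.** -/
theorem straight_td (h : LegP μ w 𝒰 ι a π lam W Ω m q U11 p11 U12 p12 U21 p21 U22 p22)
    (h1 : p11 = 1) (h2 : p22 = 1) :
    ∃ Ec F, LegC on μ w 𝒰 ι a π lam W Ω m q (NA1 q) (NA2 q) Ec F ∧
      (∀ c f, Ec c f = U11 c f) ∧ ∀ l g, F l g = U22 l g := by
  subst h1; subst h2
  haveI : TotallyDisconnectedSpace (LL k) := td_LL
  exact legC_td on_closed (fun x x' hx z z' a1 a2 a3 a4 => on_uniq hx a1 a2 a3 a4) h.base h.u11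
    h.u22 h.i11

/-- **[P-0], flipped, ultrametric.** -/
theorem flipped_td (h : LegP μ w 𝒰 ι a π lam W Ω m q U11 p11 U12 p12 U21 p21 U22 p22)
    (h1 : p12 = 1) (h2 : p21 = 1) :
    ∃ Ec F, LegC (flip on) μ w 𝒰 ι a π lam W Ω m q (NA2 q) (NA1 q) Ec F ∧
      (∀ c f, Ec c f = U12 c f) ∧ ∀ l g, F l g = U21 l g := by
  subst h1; subst h2
  haveI : TotallyDisconnectedSpace (LL k) := td_LL
  refine legC_td (IT := flip on) (on_closed.preimage continuous_swap) ?_ h.base h.u12 h.u21 ?_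
  · intro z z' hz x x' a1 a2 a3 a4
    by_contra hx
    exact hz (on_uniq hx a1 a3 a2 a4)
  · intro c l hcl g f hn
    exact i1_symm (ul_of_sp (h.u21.ul l)) (ul_of_sp (h.u12.ul c)) (h.i12 c l hcl) f g
      (fun x hx z hz => hn z hz x hx)

end leg

end Vale.Agent.P092.H631.P0
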