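import Vale.Agent.P092.H631.P0Loc
import Vale.Agent.P092.H702.Pol
import Vale.Agent.P092.H796.Conc

/-!
P092, TEAM P, TRACK 3, row [P3-0] (helper631): [0] for every form, ultrametric fields, free of the
letters of a leg.

* `pl_td`: families of ucp maps of mass one on the places `C`, `M` of the source, values in compact
  totally disconnected spaces `Y`, `Z` such that two different points lie on at most one line,
  (I1) for incident places and agreement nowhere: the maps are *-homomorphisms and the calculi of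
  an incident pair commute.
* `two_up`, `two_dn`, `td_SGr`: the geometric inputs for the singular spaces `SGr σ J j`.
-/

set_option linter.all false

open scoped InnerProductSpace
open ContinuousLinearMap Set

namespace Vale.Agent.P092.H631.P3

open Vale.Agent.P092.H828.P (UL Loc Loc0 Dis StarP)
open Vale.Agent.P092.H232 (Nin)
open Vale.Agent.P092.H631.P0 (loc_td loc0_td i1_symm ul_of_sp)

section gen

variable {K : Type*} [NormedAddCommGroup K] [InnerProductSpace ℂ K] [CompleteSpace K]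
variable {C M Y Z : Type*} [TopologicalSpace Y] [CompactSpace Y] [TopologicalSpace Z]
  [CompactSpace Z]

/-- a multiplicative letter of mass one as a *-homomorphism -/
theorem hom_of {U : C(Y, ℂ) →ₗ[ℂ] (K →L[ℂ] K)} (hU : SP.UL U 1) (hd : Dis U U) :
    ∃ F : C(Y, ℂ) →⋆ₐ[ℂ] (K →L[ℂ] K), ∀ f, F f = U f := by
  have h := ul_of_sp hU
  have hm : ∀ f f', U f * U f' = ((1 : ℝ) : ℂ) • U (f * f') := fun f f' =>
    h.mul_of_disj h hd f f'
  refine ⟨h.hom one_ne_zero hm, fun f => ?_⟩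
  rw [h.hom_apply, Complex.ofReal_one, inv_one, one_smul]

/-- **[P3-0]**: (I1) for incident places and agreement nowhere give *-homomorphisms, the calculi
of an incident pair commute and are exactly incident. -/
theorem pl_td [T2Space Y] [T2Space Z] [TotallyDisconnectedSpace Y] [TotallyDisconnectedSpace Z]
    {I : C → M → Prop} {J : Y → Z → Prop} (hJ : IsClosed {q : Y × Z | J q.1 q.2})
    (huniq : ∀ x x', x ≠ x' → ∀ z z', J x z → J x' z → J x z' → J x' z' → z = z')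
    {U : C → (C(Y, ℂ) →ₗ[ℂ] (K →L[ℂ] K))} {V : M → (C(Z, ℂ) →ₗ[ℂ] (K →L[ℂ] K))}
    (hU : ∀ c, SP.UL (U c) 1) (hV : ∀ l, SP.UL (V l) 1)
    (i1 : ∀ c l, I c l → ∀ f g, Nin J f g → U c f * V l g = 0)
    (two : ∀ c, ∃ l l', I c l ∧ I c l' ∧ l ≠ l') (two' : ∀ l, ∃ c c', I c l ∧ I c' l ∧ c ≠ c')
    (agrU : ∀ c c', c ≠ c' → ∀ ζ, (∀ f, U c f ζ = U c' f ζ) → ζ = 0)
    (agrV : ∀ l l', l ≠ l' → ∀ ζ, (∀ g, V l g ζ = V l' g ζ) → ζ = 0) :
    ∃ (Ec : C → (C(Y, ℂ) →⋆ₐ[ℂ] (K →L[ℂ] K))) (F : M → (C(Z, ℂ) →⋆ₐ[ℂ] (K →L[ℂ] K))),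
      (∀ c f, Ec c f = U c f) ∧ (∀ l g, F l g = V l g) ∧
      ∀ c l, I c l → H796.PL J (Ec c) (F l) := by
  have hJ' : IsClosed {q : Z × Y | J q.2 q.1} := hJ.preimage continuous_swap
  have huniq' : ∀ z z' : Z, z ≠ z' → ∀ x x', J x z → J x z' → J x' z → J x' z' → x = x' := by
    intro z z' hz x x' h1 h2 h3 h4
    by_contra hx
    exact hz (huniq x x' hx z z' h1 h3 h2 h4)
  have i1' : ∀ c l, I c l → ∀ v u, Nin (fun z x => J x z) v u → V l v * U c u = 0 := by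
    intro c l hcl v u hn
    exact i1_symm (ul_of_sp (hU c)) (ul_of_sp (hV l)) (i1 c l hcl) u v
      (fun x hx z hz => hn z hz x hx)
  have dE : ∀ c, Dis (U c) (U c) := by
    intro c
    obtain ⟨l, l', hl, hl', hne⟩ := two c
    have hloc := loc_td hJ huniq (ul_of_sp (hU c)) (ul_of_sp (hV l)) (ul_of_sp (hV l'))
      (i1 c l hl) (i1 c l' hl')
    exact H828.P.dis_of_loc (ul_of_sp (hU c)) one_ne_zero (ul_of_sp (hV l)).star
      (ul_of_sp (hV l')).star hloc hloc (agrV l l' hne)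
  have dF : ∀ l, Dis (V l) (V l) := by
    intro l
    obtain ⟨c, c', hc, hc', hne⟩ := two' l
    have hloc := loc_td (J := fun z x => J x z) hJ' huniq' (ul_of_sp (hV l)) (ul_of_sp (hU c))
      (ul_of_sp (hU c')) (i1' c l hc) (i1' c' l hc')
    exact H828.P.dis_of_loc (ul_of_sp (hV l)) one_ne_zero (ul_of_sp (hU c)).star
      (ul_of_sp (hU c')).star hloc hloc (agrU c c' hne)
  choose Ec hEc using fun c => hom_of (hU c) (dE c)
  choose F hF using fun l => hom_of (hV l) (dF l)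
  refine ⟨Ec, F, hEc, hF, fun c l hcl => ⟨fun f g => ?_, fun f g hn => ?_⟩⟩
  · have h0 := loc0_td hJ huniq (ul_of_sp (hU c)) (ul_of_sp (hV l)) (i1 c l hcl) (dE c)
    have h := (ul_of_sp (hU c)).comm_of_local one_ne_zero (V l g)
      (fun f f' hd => h0 f f' hd g) f
    change Ec c f * F l g = F l g * Ec c f
    rw [hEc, hF]
    exact h.symm
  · rw [hEc, hF]
    exact i1 c l hcl f g hn

end gen

section geo

open Vale.Agent.P092.H370.Po
open Vale.Agent.P092.H714.Cl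
open Vale.Agent.P092.H702.Pol (ad inc_ad mem_ad exists_two)

variable {n : Type} [Fintype n] [DecidableEq n] {k : Type} [Field k]
  {σ : k →+* k} {ε : k} {J : Matrix n n k} {j : ℕ}

/-- every singular `j`-space lies in two different singular `(j+1)`-spaces, if there is a
singular `(j+1)`-space -/
theorem two_up (hF : Frm σ ε J) (Y : SGr σ J (j + 1)) (X : SGr σ J j) :
    ∃ N N' : SGr σ J (j + 1), Inc X N ∧ Inc X N' ∧ N ≠ N' := by
  obtain ⟨N, hN⟩ := exists_inc_ge hF (Nat.le_succ j) le_rfl X Y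
  have h1 : ¬ N.S ≤ X.S := fun h => by
    have := Submodule.finrank_mono h
    rw [X.dim, N.dim] at this
    omega
  obtain ⟨c, hcN, hcX⟩ := SetLike.not_le_iff_exists.1 h1
  obtain ⟨φ, hφ1, hφ0⟩ := exists_functional (X := N.S) (H := X.S) hN hcN hcX
  obtain ⟨z, hzz, hz⟩ := exists_iso_prod hF N.sing φ (fun h => by
    rw [h] at hφ1
    exact zero_ne_one hφ1)
  have hcz : hf σ J c z = 1 := (hz ⟨c, hcN⟩).trans hφ1
  have hXz : ∀ x ∈ X.S, hf σ J x z = 0 := fun x hx => (hz ⟨x, hN hx⟩).trans (hφ0 _ hx)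
  have hzN : z ∉ N.S := fun h => by
    have := N.sing c hcN z h
    rw [hcz] at this
    exact one_ne_zero this
  have hzX : z ∉ X.S := fun h => hzN (hN h)
  refine ⟨N, ad hF X hzz hXz hzX, hN, inc_ad hF X hzz hXz hzX, fun e => hzN ?_⟩
  rw [e]
  exact mem_ad hF X hzz hXz hzX

/-- every singular `(j+1)`-space, `1 ≤ j`, contains two different `j`-spaces -/
theorem two_dn (hj : 1 ≤ j) (N : SGr σ J (j + 1)) :
    ∃ X X' : SGr σ J j, Inc X N ∧ Inc X' N ∧ X ≠ X' := by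
  obtain ⟨C, C', hne, h1, h2⟩ := exists_two hj N
  exact ⟨C, C', h1, h2, hne⟩

end geo

section td

open Vale.Agent.P092.H370.Po

variable {n : Type} [Fintype n] [DecidableEq n] {k : Type} [NontriviallyNormedField k]
  [ProperSpace k] [IsUltrametricDist k] {σ : k →+* k} {J : Matrix n n k} {j : ℕ}

instance td_SGr : TotallyDisconnectedSpace (SGr σ J j) :=
  inferInstanceAs (TotallyDisconnectedSpace {X : H100.Gr.Gr k n j // Sing σ J X.1})

end td

section sgr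

open Vale.Agent.P092.H370.Po
open Vale.Agent.P092.H714.Cl

variable {n : Type} [Fintype n] [DecidableEq n] {k : Type} [Field k]
  {σ : k →+* k} {ε : k} {J : Matrix n n k}
variable {n' : Type} [Fintype n'] [DecidableEq n'] {k' : Type} [NontriviallyNormedField k']
  [ProperSpace k'] [IsUltrametricDist k'] {σ' : k' →+* k'} [Fact (Continuous σ')]
  {J' : Matrix n' n' k'}
variable {K : Type*} [NormedAddCommGroup K] [InnerProductSpace ℂ K] [CompleteSpace K]

/-- **[P3-0], straight**: points to points, lines to lines -/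
theorem straight_SGr (hF : Frm σ ε J) (Y₀ : SGr σ J 2)
    {U : SGr σ J 1 → (C(SGr σ' J' 1, ℂ) →ₗ[ℂ] (K →L[ℂ] K))}
    {V : SGr σ J 2 → (C(SGr σ' J' 2, ℂ) →ₗ[ℂ] (K →L[ℂ] K))}
    (hU : ∀ c, SP.UL (U c) 1) (hV : ∀ l, SP.UL (V l) 1)
    (i1 : ∀ c l, Inc c l → ∀ f g, Nin (Inc (i := 1) (j := 2)) f g → U c f * V l g = 0)
    (agrU : ∀ c c', c ≠ c' → ∀ ζ, (∀ f, U c f ζ = U c' f ζ) → ζ = 0)
    (agrV : ∀ l l', l ≠ l' → ∀ ζ, (∀ g, V l g ζ = V l' g ζ) → ζ = 0) :
    ∃ (Ec : SGr σ J 1 → (C(SGr σ' J' 1, ℂ) →⋆ₐ[ℂ] (K →L[ℂ] K)))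
      (F : SGr σ J 2 → (C(SGr σ' J' 2, ℂ) →⋆ₐ[ℂ] (K →L[ℂ] K))),
      (∀ c f, Ec c f = U c f) ∧ (∀ l g, F l g = V l g) ∧
      ∀ c l, Inc c l → H796.PL (Inc (i := 1) (j := 2)) (Ec c) (F l) :=
  pl_td inc_closed (fun x x' hx z z' a1 a2 a3 a4 => H702.PG.uniq hx a1 a2 a3 a4) hU hV i1
    (fun c => two_up hF Y₀ c) (fun l => two_dn le_rfl l) agrU agrV

/-- **[P3-0], flipped**: points to lines, lines to points -/
theorem flipped_SGr (hF : Frm σ ε J) (Y₀ : SGr σ J 2)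
    {U : SGr σ J 1 → (C(SGr σ' J' 2, ℂ) →ₗ[ℂ] (K →L[ℂ] K))}
    {V : SGr σ J 2 → (C(SGr σ' J' 1, ℂ) →ₗ[ℂ] (K →L[ℂ] K))}
    (hU : ∀ c, SP.UL (U c) 1) (hV : ∀ l, SP.UL (V l) 1)
    (i1 : ∀ c l, Inc c l → ∀ f g, Nin (Inc (i := 1) (j := 2)) f g → V l f * U c g = 0)
    (agrU : ∀ c c', c ≠ c' → ∀ ζ, (∀ f, U c f ζ = U c' f ζ) → ζ = 0)
    (agrV : ∀ l l', l ≠ l' → ∀ ζ, (∀ g, V l g ζ = V l' g ζ) → ζ = 0) :
    ∃ (Ec : SGr σ J 1 → (C(SGr σ' J' 2, ℂ) →⋆ₐ[ℂ] (K →L[ℂ] K)))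
      (F : SGr σ J 2 → (C(SGr σ' J' 1, ℂ) →⋆ₐ[ℂ] (K →L[ℂ] K))),
      (∀ c f, Ec c f = U c f) ∧ (∀ l g, F l g = V l g) ∧
      ∀ c l, Inc c l → H796.PL (flip (Inc (i := 1) (j := 2))) (Ec c) (F l) := by
  refine pl_td (J := flip (Inc (i := 1) (j := 2))) (inc_closed.preimage continuous_swap)
    ?_ hU hV ?_ (fun c => two_up hF Y₀ c) (fun l => two_dn le_rfl l) agrU agrV
  · intro z z' hz x x' a1 a2 a3 a4
    by_contra hx
    exact hz (H702.PG.uniq hx a1 a3 a2 a4)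
  · intro c l hcl g f hn
    exact i1_symm (ul_of_sp (hV l)) (ul_of_sp (hU c)) (i1 c l hcl) f g
      (fun x hx z hz => hn z hz x hx)

end sgr

end Vale.Agent.P092.H631.P3
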