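import Vale.Agent.P092.H828.P.Q0c
import Vale.Agent.P092.H411.NAgr

/-!
P092, TEAM P, row [P-0A] (helper631): the assembly of [0] (#6726 (3), (4), (5)). From incident
pairs of unital (up to scalars) positive maps with local differences to commuting multiplicative
maps. Both types, every field. Group-free up to the picture.
-/

set_option linter.all false

open scoped InnerProductSpace
open ContinuousLinearMap

namespace Vale.Agent.P092.H631.P0

open Vale.Agent.P092.RC (Cm Moore)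
open Vale.Agent.P092.H828.P (UL Loc Loc0 Dis)

/-! ### The part of the picture which is used -/

section bas

variable {G Γ K : Type} [Group G] [TopologicalSpace G] [Group Γ] [NormedAddCommGroup K]
  [InnerProductSpace ℂ K] [CompleteSpace K]

/-- the part of `RC.Pic` (or of `RC.PicX`) which is used here -/
structure Bas (π : G →* (K →L[ℂ] K)) (lam : Γ →* (K →L[ℂ] K)) (W : Set (K →L[ℂ] K)) :
    Prop where
  adjP : ∀ g, adjoint (π g) = π g⁻¹
  adjL : ∀ γ, adjoint (lam γ) = lam γ⁻¹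
  Wadj : ∀ w ∈ W, adjoint w ∈ W
  erg : ∀ S : Set G, Moore S → ∀ T, Cm W T → (∀ γ, T * lam γ = lam γ * T) →
    (∀ g ∈ S, T * π g = π g * T) → ∃ z : ℂ, T = z • (1 : K →L[ℂ] K)
  inv : ∃ Ω' : K, ‖Ω'‖ = 1 ∧ ∀ T, Cm W T → (∀ g, T * π g = π g * T) → ∀ γ,
    ⟪Ω', (lam γ * T * lam γ⁻¹) Ω'⟫_ℂ = ⟪Ω', T Ω'⟫_ℂ

variable {π : G →* (K →L[ℂ] K)} {lam : Γ →* (K →L[ℂ] K)} {W : Set (K →L[ℂ] K)} {Ω : K}

theorem Bas.of_pic (h : RC.Pic π lam W Ω) : Bas π lam W where
  adjP := h.adjP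
  adjL := h.adjL
  Wadj := h.Wadj
  erg := h.erg
  inv := ⟨Ω, h.nΩ, h.inv⟩

/-- zero-one law for closed subspaces -/
theorem Bas.zo (hp : Bas π lam W) {S : Set G} (hS : Moore S) {M : Submodule ℂ K}
    (hM : IsClosed (M : Set K)) (hW : ∀ w ∈ W, ∀ ζ ∈ M, w ζ ∈ M)
    (hL : ∀ γ, ∀ ζ ∈ M, lam γ ζ ∈ M) (hπ : ∀ g ∈ S, ∀ ζ ∈ M, π g ζ ∈ M ∧ π g⁻¹ ζ ∈ M) :
    M = ⊥ ∨ M = ⊤ := by
  haveI : CompleteSpace M := hM.completeSpace_coe
  have h : M.starProjection = 0 ∨ M.starProjection = 1 := by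
    obtain ⟨z, hz⟩ := hp.erg S hS M.starProjection
      (fun w hw => H411.comm_starProjection (hW w hw) (hW _ (hp.Wadj w hw)))
      (fun γ => H411.comm_starProjection (hL γ) (by rw [hp.adjL]; exact hL γ⁻¹))
      (fun g hg => H411.comm_starProjection (fun ζ hζ => (hπ g hg ζ hζ).1)
        (by rw [hp.adjP]; exact fun ζ hζ => (hπ g hg ζ hζ).2))
    refine H411.idem_scalar hz ?_
    ext1 ζ
    change M.starProjection (M.starProjection ζ) = M.starProjection ζ
    exact Submodule.starProjection_eq_self_iff.2 (Submodule.starProjection_apply_mem _ _)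
  rcases h with h | h
  · left
    rw [eq_bot_iff]
    intro ζ hζ
    have h1 : M.starProjection ζ = ζ := Submodule.starProjection_eq_self_iff.2 hζ
    rw [h] at h1
    exact (Submodule.mem_bot ℂ).2 h1.symm
  · right
    rw [eq_top_iff]
    intro ζ _
    have h1 : M.starProjection ζ ∈ M := Submodule.starProjection_apply_mem _ _
    rw [h] at h1
    exact h1

end bas

/-! ### The system -/

section sys

variable {G Γ K : Type} [Group G] [TopologicalSpace G] [Group Γ] [NormedAddCommGroup K]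
  [InnerProductSpace ℂ K] [CompleteSpace K]
variable {C M Y Z : Type*} [TopologicalSpace Y] [CompactSpace Y] [TopologicalSpace Z]
  [CompactSpace Z]

/-- The positive maps of all source points `c : C` and all source lines `m : M`, before
multiplicativity: everything which is used. `I` = incidence of the source, `aC, aM` the action of
the source group, `tY, tZ` the action of the target group on functions of points / of lines. -/
structure Sys (π : G →* (K →L[ℂ] K)) (lam : Γ →* (K →L[ℂ] K)) (W : Set (K →L[ℂ] K))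
    (I : C → M → Prop) (aC : G → C → C) (aM : G → M → M)
    (tY : Γ → C(Y, ℂ) → C(Y, ℂ)) (tZ : Γ → C(Z, ℂ) → C(Z, ℂ)) (p q : ℝ)
    (E : C → (C(Y, ℂ) →ₗ[ℂ] (K →L[ℂ] K))) (F : M → (C(Z, ℂ) →ₗ[ℂ] (K →L[ℂ] K))) : Prop where
  bas : Bas π lam W
  p0 : 0 < p
  q0 : 0 < q
  ulE : ∀ c, UL (E c) p
  ulF : ∀ m, UL (F m) q
  cmE : ∀ c f, Cm W (E c f)
  cmF : ∀ m g, Cm W (F m g)
  covE : ∀ γ c f, lam γ * E c f * lam γ⁻¹ = E c (tY γ f)
  covF : ∀ γ m g, lam γ * F m g * lam γ⁻¹ = F m (tZ γ g)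
  pE : ∀ e c f, π e * E c f * π e⁻¹ = E (aC e c) f
  pF : ∀ e m g, π e * F m g * π e⁻¹ = F (aM e m) g
  aCi : ∀ e c, aC e⁻¹ (aC e c) = c
  aMi : ∀ e m, aM e⁻¹ (aM e m) = m
  incP : ∀ e c m, I c m → I (aC e c) (aM e m)
  neC : Nonempty C
  neM : Nonempty M
  trC : ∀ c c', ∃ e, aC e c = c'
  trM : ∀ m m', ∃ e, aM e m = m'
  moC : ∀ c, Moore {e | aC e c = c}
  moM : ∀ m, Moore {e | aM e m = m}
  conM : ∀ m m', Relation.ReflTransGen (fun a b => ∃ c, I c a ∧ I c b) m m'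
  conC : ∀ c c', Relation.ReflTransGen (fun a b => ∃ m, I a m ∧ I b m) c c'
  nisY : ∀ φ : C(Y, ℂ) →ₗ[ℂ] ℂ, (∀ f, 0 ≤ (φ (star f * f)).re) → φ 1 = 1 →
    (∀ γ f, φ (tY γ f) = φ f) → False
  nisZ : ∀ φ : C(Z, ℂ) →ₗ[ℂ] ℂ, (∀ f, 0 ≤ (φ (star f * f)).re) → φ 1 = 1 →
    (∀ γ f, φ (tZ γ f) = φ f) → False
  /-- the differences are local: #6726 (1) -/
  locE : ∀ c m m', I c m → I c m' → Loc (E c) (E c) (F m) (F m')
  locF : ∀ m c c', I c m → I c' m → Loc (F m) (F m) (E c) (E c')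

variable {π : G →* (K →L[ℂ] K)} {lam : Γ →* (K →L[ℂ] K)} {W : Set (K →L[ℂ] K)}
  {I : C → M → Prop} {aC : G → C → C} {aM : G → M → M}
  {tY : Γ → C(Y, ℂ) → C(Y, ℂ)} {tZ : Γ → C(Z, ℂ) → C(Z, ℂ)} {p q : ℝ}
  {E : C → (C(Y, ℂ) →ₗ[ℂ] (K →L[ℂ] K))} {F : M → (C(Z, ℂ) →ₗ[ℂ] (K →L[ℂ] K))}

/-- the dual system -/
theorem Sys.dual (h : Sys π lam W I aC aM tY tZ p q E F) :
    Sys π lam W (fun m c => I c m) aM aC tZ tY q p F E where
  bas := h.bas
  p0 := h.q0
  q0 := h.p0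
  ulE := h.ulF
  ulF := h.ulE
  cmE := h.cmF
  cmF := h.cmE
  covE := h.covF
  covF := h.covE
  pE := h.pF
  pF := h.pE
  aCi := h.aMi
  aMi := h.aCi
  incP := fun e m c => h.incP e c m
  neC := h.neM
  neM := h.neC
  trC := h.trM
  trM := h.trC
  moC := h.moM
  moM := h.moC
  conM := h.conC
  conC := h.conM
  nisY := h.nisZ
  nisZ := h.nisY
  locE := fun m c c' => h.locF m c c'
  locF := fun c m m' => h.locE c m m'

theorem Sys.aCi' (h : Sys π lam W I aC aM tY tZ p q E F) (e : G) (c : C) :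
    aC e (aC e⁻¹ c) = c := by
  have := h.aCi e⁻¹ c
  rwa [inv_inv] at this

theorem Sys.aMi' (h : Sys π lam W I aC aM tY tZ p q E F) (e : G) (m : M) :
    aM e (aM e⁻¹ m) = m := h.dual.aCi' e m

omit [TopologicalSpace G] [CompleteSpace K] in
theorem pi_inv_mul (π : G →* (K →L[ℂ] K)) (e : G) : π e⁻¹ * π e = 1 := by
  rw [← map_mul, inv_mul_cancel, map_one]

omit [TopologicalSpace G] [CompleteSpace K] in
theorem pi_mul_inv (π : G →* (K →L[ℂ] K)) (e : G) : π e * π e⁻¹ = 1 := by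
  rw [← map_mul, mul_inv_cancel, map_one]

omit [CompleteSpace K] in
theorem lam_mul_inv (lam : Γ →* (K →L[ℂ] K)) (e : Γ) : lam e * lam e⁻¹ = 1 := by
  rw [← map_mul, mul_inv_cancel, map_one]

theorem Sys.piF (h : Sys π lam W I aC aM tY tZ p q E F) (e : G) (m : M) (g : C(Z, ℂ)) :
    F m g * π e = π e * F (aM e⁻¹ m) g := by
  have h1 := h.pF e (aM e⁻¹ m) g
  rw [h.aMi'] at h1
  rw [← h1, mul_assoc, pi_inv_mul, mul_one]

/-- the agreement space of all lines through the point `c` -/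
def agS (I : C → M → Prop) (F : M → (C(Z, ℂ) →ₗ[ℂ] (K →L[ℂ] K))) (c : C) : Submodule ℂ K where
  carrier := {ζ | ∀ m m', I c m → I c m' → ∀ g, F m g ζ = F m' g ζ}
  add_mem' := by
    intro a b ha hb m m' hm hm' g
    rw [map_add, map_add, ha m m' hm hm' g, hb m m' hm hm' g]
  zero_mem' := by
    intro m m' _ _ g
    rw [map_zero, map_zero]
  smul_mem' := by
    intro z a ha m m' hm hm' g
    rw [map_smul, map_smul, ha m m' hm hm' g]

theorem agS_closed (I : C → M → Prop) (F : M → (C(Z, ℂ) →ₗ[ℂ] (K →L[ℂ] K))) (c : C) :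
    IsClosed (agS I F c : Set K) := by
  have : (agS I F c : Set K) =
      ⋂ (m) (m') (_ : I c m) (_ : I c m') (g : C(Z, ℂ)), {ζ | F m g ζ = F m' g ζ} := by
    ext ζ
    simp only [Set.mem_iInter, Set.mem_setOf_eq]
    rfl
  rw [this]
  refine isClosed_iInter fun m => isClosed_iInter fun m' => isClosed_iInter fun _ =>
    isClosed_iInter fun _ => isClosed_iInter fun g => isClosed_eq (F m g).continuous
      (F m' g).continuous

theorem Sys.agS_zo (h : Sys π lam W I aC aM tY tZ p q E F) (c : C) :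
    agS I F c = ⊥ ∨ agS I F c = ⊤ := by
  refine h.bas.zo (h.moC c) (agS_closed I F c) ?_ ?_ ?_
  · intro w hw ζ hζ m m' hm hm' g
    have h1 : ∀ m, F m g (w ζ) = w (F m g ζ) := fun m =>
      DFunLike.congr_fun (h.cmF m g w hw) ζ
    rw [h1, h1, hζ m m' hm hm' g]
  · intro γ ζ hζ m m' hm hm' g
    have h1 : ∀ m, F m g (lam γ ζ) = lam γ (F m (tZ γ⁻¹ g) ζ) := by
      intro m
      have h2 : F m g * lam γ = lam γ * F m (tZ γ⁻¹ g) := by
        rw [← h.covF γ⁻¹ m g, inv_inv]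
        have h3 : lam γ * lam γ⁻¹ = 1 := lam_mul_inv lam γ
        rw [← mul_assoc, ← mul_assoc, h3, one_mul]
      exact DFunLike.congr_fun h2 ζ
    rw [h1, h1, hζ m m' hm hm' _]
  · have key : ∀ e : G, aC e c = c → ∀ ζ ∈ agS I F c, π e ζ ∈ agS I F c := by
      intro e he ζ hζ m m' hm hm' g
      have h1 : ∀ m, F m g (π e ζ) = π e (F (aM e⁻¹ m) g ζ) := fun m =>
        DFunLike.congr_fun (h.piF e m g) ζ
      have hc : aC e⁻¹ c = c := by
        have := h.aCi e c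
        rwa [he] at this
      have h2 : ∀ m, I c m → I c (aM e⁻¹ m) := by
        intro m hm
        have := h.incP e⁻¹ c m hm
        rwa [hc] at this
      rw [h1, h1, hζ _ _ (h2 m hm) (h2 m' hm') g]
    intro e he ζ hζ
    refine ⟨key e he ζ hζ, key e⁻¹ ?_ ζ hζ⟩
    have := h.aCi e c
    rwa [he] at this

/-- #6726 (4): the lines through a point agree nowhere (all of them together). -/
theorem Sys.agS_bot (h : Sys π lam W I aC aM tY tZ p q E F) (c : C) : agS I F c = ⊥ := by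
  rcases h.agS_zo c with h0 | h1
  · exact h0
  exfalso
  -- all lines through `c` have the same map
  have h2 : ∀ m m', I c m → I c m' → ∀ g, F m g = F m' g := by
    intro m m' hm hm' g
    ext1 ζ
    have : ζ ∈ agS I F c := by rw [h1]; trivial
    exact this m m' hm hm' g
  -- the same at every point
  have h3 : ∀ c' m m', I c' m → I c' m' → ∀ g, F m g = F m' g := by
    intro c' m m' hm hm' g
    obtain ⟨e, he⟩ := h.trC c c'
    have hc : aC e⁻¹ c' = c := by rw [← he]; exact h.aCi e c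
    have h4 : ∀ m, I c' m → I c (aM e⁻¹ m) := by
      intro m hm
      have := h.incP e⁻¹ c' m hm
      rwa [hc] at this
    have h5 := h2 _ _ (h4 m hm) (h4 m' hm') g
    have h6 : ∀ m, π e * F (aM e⁻¹ m) g * π e⁻¹ = F m g := by
      intro m
      rw [h.pF, h.aMi']
    rw [← h6 m, ← h6 m', h5]
  -- all lines have the same map
  have h7 : ∀ m m' g, F m g = F m' g := by
    intro m m' g
    have hr := h.conM m m'
    induction hr with
    | refl => rfl
    | tail _ hbc ih =>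
      obtain ⟨c', hb, hc⟩ := hbc
      rw [ih, h3 c' _ _ hb hc g]
  -- an invariant state
  obtain ⟨Ω', hn, hinv⟩ := h.bas.inv
  obtain ⟨m⟩ := h.neM
  have hcomm : ∀ g e, F m g * π e = π e * F m g := by
    intro g e
    rw [h.piF e m g, h7 (aM e⁻¹ m) m g]
  have hq : (q : ℂ) ≠ 0 := by exact_mod_cast h.q0.ne'
  let φ : C(Z, ℂ) →ₗ[ℂ] ℂ :=
    { toFun := fun g => (q : ℂ)⁻¹ * ⟪Ω', F m g Ω'⟫_ℂ
      map_add' := by
        intro a b
        rw [map_add, add_apply, inner_add_right, mul_add]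
      map_smul' := by
        intro z a
        rw [map_smul, smul_apply, inner_smul_right, RingHom.id_apply, smul_eq_mul]
        ring }
  refine h.nisZ φ ?_ ?_ ?_
  · intro f
    have hb := (h.ulF m).bes (ι := Unit) {()} (fun _ => f) Ω'
    rw [Finset.sum_singleton, Finset.sum_singleton] at hb
    have h8 : (φ (star f * f)).re = q⁻¹ * (⟪Ω', F m (star f * f) Ω'⟫_ℂ).re := by
      change ((q : ℂ)⁻¹ * ⟪Ω', F m (star f * f) Ω'⟫_ℂ).re = _
      rw [← Complex.ofReal_inv, Complex.re_ofReal_mul]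
    rw [h8]
    refine mul_nonneg (inv_nonneg.2 h.q0.le) (le_trans (by positivity) hb)
  · change (q : ℂ)⁻¹ * ⟪Ω', F m 1 Ω'⟫_ℂ = 1
    rw [(h.ulF m).one, smul_apply, ContinuousLinearMap.one_apply, inner_smul_right, inner_self_eq_norm_sq_to_K, hn]
    simp [hq]
  · intro γ f
    change (q : ℂ)⁻¹ * ⟪Ω', F m (tZ γ f) Ω'⟫_ℂ = (q : ℂ)⁻¹ * ⟪Ω', F m f Ω'⟫_ℂ
    rw [← h.covF, hinv (F m f) (h.cmF m f) (hcomm f) γ]

/-! ### #6726 (3): multiplicativity -/

/-- the differences commute with the maps of the point -/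
theorem Sys.diff_comm (h : Sys π lam W I aC aM tY tZ p q E F) {c : C} {m m' : M} (hm : I c m)
    (hm' : I c m') (g : C(Z, ℂ)) (f : C(Y, ℂ)) :
    (F m g - F m' g) * E c f = E c f * (F m g - F m' g) :=
  (h.ulE c).comm_of_local h.p0.ne' _ (fun f f' hd => h.locE c m m' hm hm' f f' hd g) f

theorem Sys.orth (h : Sys π lam W I aC aM tY tZ p q E F) (c : C) : Dis (E c) (E c) := by
  intro f f' hd
  -- the product kills all differences
  have h1 : ∀ m m', I c m → I c m' → ∀ g, E c f * E c f' * (F m g - F m' g) = 0 := by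
    intro m m' hm hm' g
    rw [mul_assoc, ← h.diff_comm hm hm' g f', ← mul_assoc]
    exact h.locE c m m' hm hm' f f' hd g
  -- so does the adjoint from the other side
  have h2 : ∀ ζ, adjoint (E c f * E c f') ζ ∈ agS I F c := by
    intro ζ m m' hm hm' g
    have h3 := congrArg adjoint (h1 m m' hm hm' (star g))
    rw [ContinuousLinearMap.mul_def, ContinuousLinearMap.adjoint_comp, map_zero] at h3
    have h4 : adjoint (F m (star g) - F m' (star g)) = F m g - F m' g := by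
      rw [map_sub]
      have h5 : ∀ m, adjoint (F m (star g)) = F m g := by
        intro m
        rw [← star_eq_adjoint, (h.ulF m).star, star_star]
      rw [h5, h5]
    rw [h4] at h3
    have h6 := DFunLike.congr_fun h3 ζ
    change (F m g - F m' g) (adjoint (E c f * E c f') ζ) = 0 at h6
    rw [sub_apply, sub_eq_zero] at h6
    exact h6
  have h7 : adjoint (E c f * E c f') = 0 := by
    ext1 ζ
    have := h2 ζ
    rw [h.agS_bot c] at this
    exact (Submodule.mem_bot ℂ).1 this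
  have h8 := congrArg adjoint h7
  rwa [adjoint_adjoint, map_zero] at h8

theorem Sys.mul (h : Sys π lam W I aC aM tY tZ p q E F) (c : C) (f f' : C(Y, ℂ)) :
    E c f * E c f' = (p : ℂ) • E c (f * f') :=
  (h.ulE c).mul_of_disj (h.ulE c) (h.orth c) f f'

/-! ### The output -/

/-- The output of [0]. -/
structure Out (π : G →* (K →L[ℂ] K)) (lam : Γ →* (K →L[ℂ] K)) (W : Set (K →L[ℂ] K))
    (I : C → M → Prop) (aC : G → C → C) (aM : G → M → M)
    (tY : Γ → C(Y, ℂ) → C(Y, ℂ)) (tZ : Γ → C(Z, ℂ) → C(Z, ℂ)) (p q : ℝ)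
    (E : C → (C(Y, ℂ) →ₗ[ℂ] (K →L[ℂ] K))) (F : M → (C(Z, ℂ) →ₗ[ℂ] (K →L[ℂ] K)))
    (E' : C → (C(Y, ℂ) →⋆ₐ[ℂ] (K →L[ℂ] K))) (F' : M → (C(Z, ℂ) →⋆ₐ[ℂ] (K →L[ℂ] K))) :
    Prop where
  eE : ∀ c f, E c f = (p : ℂ) • E' c f
  eF : ∀ m g, F m g = (q : ℂ) • F' m g
  cmE : ∀ c f, Cm W (E' c f)
  cmF : ∀ m g, Cm W (F' m g)
  covE : ∀ γ c f, lam γ * E' c f * lam γ⁻¹ = E' c (tY γ f)
  covF : ∀ γ m g, lam γ * F' m g * lam γ⁻¹ = F' m (tZ γ g)
  pE : ∀ e c f, π e * E' c f * π e⁻¹ = E' (aC e c) f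
  pF : ∀ e m g, π e * F' m g * π e⁻¹ = F' (aM e m) g
  /-- incident calculi commute -/
  comm : ∀ c m, I c m → ∀ f g, E' c f * F' m g = F' m g * E' c f

/-- **[P-0A].** `loc0` is #6726 (5): its hypothesis is the exact orthogonality of the maps of
points, which is equivalent to multiplicativity. -/
theorem Sys.out (h : Sys π lam W I aC aM tY tZ p q E F)
    (loc0 : ∀ c m, I c m → Dis (E c) (E c) → Loc0 (E c) (E c) (F m)) :
    ∃ E' F', Out π lam W I aC aM tY tZ p q E F E' F' := by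
  have hp : (p : ℂ) ≠ 0 := by exact_mod_cast h.p0.ne'
  have hq : (q : ℂ) ≠ 0 := by exact_mod_cast h.q0.ne'
  let E' : C → (C(Y, ℂ) →⋆ₐ[ℂ] (K →L[ℂ] K)) := fun c =>
    (h.ulE c).hom h.p0.ne' (h.mul c)
  let F' : M → (C(Z, ℂ) →⋆ₐ[ℂ] (K →L[ℂ] K)) := fun m =>
    (h.ulF m).hom h.q0.ne' (h.dual.mul m)
  have eE : ∀ c f, E' c f = (p : ℂ)⁻¹ • E c f := fun c f => rfl
  have eF : ∀ m g, F' m g = (q : ℂ)⁻¹ • F m g := fun m g => rfl
  refine ⟨E', F', ?_⟩
  refine ⟨?_, ?_, ?_, ?_, ?_, ?_, ?_, ?_, ?_⟩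
  · intro c f
    rw [eE, smul_smul, mul_inv_cancel₀ hp, one_smul]
  · intro m g
    rw [eF, smul_smul, mul_inv_cancel₀ hq, one_smul]
  · intro c f w hw
    rw [eE, smul_mul_assoc, h.cmE c f w hw, mul_smul_comm]
  · intro m g w hw
    rw [eF, smul_mul_assoc, h.cmF m g w hw, mul_smul_comm]
  · intro γ c f
    rw [eE, eE, mul_smul_comm, smul_mul_assoc, h.covE]
  · intro γ m g
    rw [eF, eF, mul_smul_comm, smul_mul_assoc, h.covF]
  · intro e c f
    rw [eE, eE, mul_smul_comm, smul_mul_assoc, h.pE]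
  · intro e m g
    rw [eF, eF, mul_smul_comm, smul_mul_assoc, h.pF]
  · intro c m hcm f g
    have h1 := (h.ulE c).comm_of_local h.p0.ne' (F m g)
      (fun f f' hd => loc0 c m hcm (h.orth c) f f' hd g) f
    rw [eE, eF, smul_mul_smul_comm, smul_mul_smul_comm, h1, mul_comm (p : ℂ)⁻¹]

end sys

end Vale.Agent.P092.H631.P0
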