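import Vale.Agent.P092.H631.P2Opp

/-!
P092, TEAM P, TRACK 2 (and 3), row [P2-PROX] (helper631), part 2: the spaces opposite to a given
one form an open dense subset of the singular Grassmannian.
-/

set_option linter.all false

open Matrix Module Set Topology Filter

namespace Vale.Agent.P092.H631.P2

open Vale.Agent.P092.H303 (FormGroup)
open Vale.Agent.P092.H714.Cl
open Vale.Agent.P092.H370.Po

section alg

variable {n : Type} [Fintype n] [DecidableEq n] {k : Type} [Field k]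
  {σ : k →+* k} {ε : k} {J : Matrix n n k} {i j : ℕ}

/-- a space which is not opposite contains an orthogonal point -/
theorem not_opp_iff {X Y : SGr σ J j} :
    ¬ OppS X Y ↔ ∃ P : SGr σ J 1, Inc P X ∧ Col P Y := by
  constructor
  · intro h
    unfold OppS Op₁ at h
    push Not at h
    obtain ⟨x, hx, hxy, hx0⟩ := h
    have hle : Submodule.span k {x} ≤ X.S := (Submodule.span_singleton_le_iff_mem _ _).2 hx
    refine ⟨SGr.mk' (Submodule.span k {x}) (X.sing.mono hle) (finrank_span_singleton hx0),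
      hle, ?_⟩
    intro y hy z hz
    obtain ⟨c, rfl⟩ := Submodule.mem_span_singleton.1 hy
    rw [hf_smul_left, hxy z hz, mul_zero]
  · rintro ⟨P, h1, h2⟩ h
    have h3 : P.S ≤ ⊥ := fun x hx => (Submodule.mem_bot k).2 (h x (h1 hx) fun y hy => h2 x hx y hy)
    have h4 := P.dim
    rw [(le_bot_iff.1 h3), finrank_bot] at h4
    exact zero_ne_one h4

/-- the inverse transvection as an element of the group -/
noncomputable def tiv (hF : Frm σ ε J) {u : n → k} (hu : hf σ J u u = 0) {c : k}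
    (hc : c + ε * σ c = 0) : FormGroup σ J := ⟨tv σ J u c, tv_mem hF hu hc⟩⁻¹

theorem tiv_S (hF : Frm σ ε J) {u : n → k} (hu : hf σ J u u = 0) {c : k}
    (hc : c + ε * σ c = 0) (X : SGr σ J j) : (tiv hF hu hc • X).S = act (tv σ J u c) X.S := by
  have h : ((tiv hF hu hc).1⁻¹ : SpecialLinearGroup n k) = tv σ J u c := by
    change ((tv σ J u c)⁻¹)⁻¹ = _
    rw [inv_inv]
  rw [smul_S, h]

/-- **one step towards opposition** -/
theorem step (hF : Frm σ ε J) {X Y : SGr σ J j} (h : ¬ OppS X Y) :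
    ∃ (u : n → k) (hu : hf σ J u u = 0), ∀ c, c ≠ 0 → ∀ hc : c + ε * σ c = 0,
      finrank k ↥((tiv hF hu hc • X).S ⊓ perp σ J Y.S) < finrank k ↥(X.S ⊓ perp σ J Y.S) := by
  have h' : ¬ OppS Y X := fun hh => h (hh.symm hF)
  unfold OppS Op₁ at h h'
  push Not at h h'
  obtain ⟨x, hx, hxY, hx0⟩ := h
  obtain ⟨y, hy, hyX, hy0⟩ := h'
  -- the span is singular
  have hxx : hf σ J x x = 0 := X.sing x hx x hx
  have hyy : hf σ J y y = 0 := Y.sing y hy y hy
  have s0 : Sing σ J (Submodule.span k {x}) :=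
    X.sing.mono ((Submodule.span_singleton_le_iff_mem _ _).2 hx)
  have s1 : Sing σ J (Submodule.span k {x} ⊔ Submodule.span k {y}) := by
    refine sing_sup_span hF s0 hyy fun z hz => ?_
    obtain ⟨c, rfl⟩ := Submodule.mem_span_singleton.1 hz
    rw [hf_smul_left, hxY y hy, mul_zero]
  have hxT : x ∈ Submodule.span k {x} ⊔ Submodule.span k {y} :=
    (le_sup_left : Submodule.span k {x} ≤ _) (Submodule.mem_span_singleton_self x)
  have hyT : y ∈ Submodule.span k {x} ⊔ Submodule.span k {y} :=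
    (le_sup_right : Submodule.span k {y} ≤ _) (Submodule.mem_span_singleton_self y)
  obtain ⟨φ, h1, h2, -⟩ := exists_functional₂ (bot_le : ⊥ ≤ Submodule.span k {x} ⊔ Submodule.span k {y})
    hxT hyT (fun h => hx0 ((Submodule.mem_bot k).1 h)) (fun h => hy0 ((Submodule.mem_bot k).1 h))
  obtain ⟨u, hu, huφ⟩ := exists_iso_prod hF s1 φ (fun h => h1 (by rw [h]; rfl))
  have hxu : hf σ J x u ≠ 0 := by
    have := huφ ⟨x, hxT⟩
    rw [this]; exact h1
  have hyu : hf σ J y u ≠ 0 := by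
    have := huφ ⟨y, hyT⟩
    rw [this]; exact h2
  have huy : hf σ J u y ≠ 0 := hF.symm_ne hyu
  refine ⟨u, hu, fun c hc0 hc => ?_⟩
  -- the new intersection is the image of a smaller space
  have key : (tiv hF hu hc • X).S ⊓ perp σ J Y.S ≤ X.S ⊓ perp σ J Y.S := by
    rintro z ⟨hz1, hz2⟩
    rw [tiv_S] at hz1
    obtain ⟨v, hv, rfl⟩ := mem_act.1 hz1
    have hz3 := (perp_symm hF).1 hz2
    have e1 := hz3 y hy
    rw [vecMul_tv hu, hf_add_left, hf_smul_left, hF.symm_zero (hyX v hv), zero_add] at e1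
    have e2 : hf σ J v u = 0 := by
      rcases mul_eq_zero.1 e1 with h | h
      · exact (mul_eq_zero.1 h).resolve_left hc0
      · exact absurd h huy
    have e3 : v ᵥ* (tv σ J u c).1 = v := by
      rw [vecMul_tv hu, e2, mul_zero, zero_smul, add_zero]
    rw [e3] at hz2 ⊢
    exact ⟨hv, hz2⟩
  have hxm : x ∈ X.S ⊓ perp σ J Y.S := ⟨hx, (perp_symm hF).2 hxY⟩
  refine Submodule.finrank_lt_finrank_of_lt (lt_of_le_of_ne key fun he => ?_)
  rw [← he] at hxm
  have hz1 := hxm.1
  rw [tiv_S] at hz1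
  obtain ⟨v, hv, hvx⟩ := mem_act.1 hz1
  rw [vecMul_tv hu] at hvx
  -- `hf v u = hf x u ≠ 0`, but `x ⊥ y` forces `hf v u = 0`
  have e1 : hf σ J x u = hf σ J v u := by
    rw [← hvx, hf_add_left, hf_smul_left, hu, mul_zero, add_zero]
  have e2 := hxY y hy
  rw [← hvx, hf_add_left, hf_smul_left, hF.symm_zero (hyX v hv), zero_add] at e2
  rcases mul_eq_zero.1 e2 with h | h
  · rcases mul_eq_zero.1 h with h | h
    · exact hc0 h
    · exact hxu (e1.trans h)
  · exact huy h

end alg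

section top

variable {n : Type} [Fintype n] [DecidableEq n] {k : Type} [NontriviallyNormedField k]
  {σ : k →+* k} {ε : k} {J : Matrix n n k} {j : ℕ}

/-- opposition is open -/
theorem opp_open [ProperSpace k] (hσ : Continuous σ) (Y : SGr σ J j) :
    IsOpen {X : SGr σ J j | OppS X Y} := by
  haveI : Fact (Continuous σ) := ⟨hσ⟩
  rw [← isClosed_compl_iff]
  have e : {X : SGr σ J j | OppS X Y}ᶜ =
      Prod.fst '' {p : SGr σ J j × SGr σ J 1 | Inc p.2 p.1 ∧ Col p.2 Y} := by
    ext X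
    constructor
    · intro h
      obtain ⟨P, h1, h2⟩ := not_opp_iff.1 h
      exact ⟨(X, P), ⟨h1, h2⟩, rfl⟩
    · rintro ⟨⟨X', P⟩, ⟨h1, h2⟩, rfl⟩
      exact not_opp_iff.2 ⟨P, h1, h2⟩
  rw [e]
  refine isClosedMap_fst_of_compactSpace _ (IsClosed.inter ?_ ?_)
  · exact (inc_closed (σ := σ) (J := J) (i := 1) (j := j)).preimage
      (continuous_snd.prodMk continuous_fst)
  · exact (col_closed (J := J) hσ (i := 1) (j := j)).preimage
      (continuous_snd.prodMk continuous_const)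

/-- both variables: opposition is an open relation -/
theorem opp_open₂ [ProperSpace k] (hσ : Continuous σ) :
    IsOpen {p : SGr σ J j × SGr σ J j | OppS p.1 p.2} := by
  haveI : Fact (Continuous σ) := ⟨hσ⟩
  rw [← isClosed_compl_iff]
  have e : {p : SGr σ J j × SGr σ J j | OppS p.1 p.2}ᶜ =
      Prod.fst '' {p : (SGr σ J j × SGr σ J j) × SGr σ J 1 | Inc p.2 p.1.1 ∧ Col p.2 p.1.2} := by
    ext X
    constructor
    · intro h
      obtain ⟨P, h1, h2⟩ := not_opp_iff.1 h
      exact ⟨(X, P), ⟨h1, h2⟩, rfl⟩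
    · rintro ⟨⟨X', P⟩, ⟨h1, h2⟩, rfl⟩
      exact not_opp_iff.2 ⟨P, h1, h2⟩
  rw [e]
  refine isClosedMap_fst_of_compactSpace _ (IsClosed.inter ?_ ?_)
  · exact (inc_closed (σ := σ) (J := J) (i := 1) (j := j)).preimage
      (continuous_snd.prodMk (continuous_fst.comp continuous_fst))
  · exact (col_closed (J := J) hσ (i := 1) (j := j)).preimage
      (continuous_snd.prodMk (continuous_snd.comp continuous_fst))

/-- small transvections move a space a little -/
theorem tendsto_tiv (hF : Frm σ ε J) (hσ : Continuous σ) {u : n → k} (hu : hf σ J u u = 0)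
    {c : k} (hc : c + ε * σ c = 0) (X : SGr σ J j) :
    Tendsto (fun s : k => tiv hF hu (cc_smul hF.inv hc s) • X) (𝓝 0) (𝓝 X) := by
  have h0 : Tendsto (fun s : k => s * c * σ s) (𝓝 0) (𝓝 0) := by
    have h : Continuous fun s : k => s * c * σ s := by fun_prop
    have h' := h.tendsto 0
    simpa only [zero_mul] using h'
  have h1 : Tendsto (fun s : k => tv σ J u (s * c * σ s)) (𝓝 0) (𝓝 (tv σ J u 0)) :=
    tendsto_tv hσ (fun _ => hu) hu tendsto_const_nhds h0
  rw [tv_zero] at h1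
  have h2 : Tendsto (fun s : k => (⟨tv σ J u (s * c * σ s), tv_mem hF hu
      (cc_smul hF.inv hc s)⟩ : FormGroup σ J)) (𝓝 0) (𝓝 1) := by
    rw [tendsto_subtype_rng]
    exact h1
  have h3 := h2.inv
  rw [inv_one] at h3
  have h4 := h3.smul (tendsto_const_nhds (x := X))
  rw [one_smul] at h4
  exact h4

/-- **density**: a nonempty open set contains a space opposite to a given one -/
theorem opp_dense (hF : Frm σ ε J) (hσ : Continuous σ) {U : Set (SGr σ J j)} (hU : IsOpen U)
    (hUn : U.Nonempty) (Y : SGr σ J j) : ∃ X ∈ U, OppS X Y := by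
  obtain ⟨X, hX⟩ := hUn
  obtain ⟨m, hm⟩ : ∃ m, finrank k ↥(X.S ⊓ perp σ J Y.S) = m := ⟨_, rfl⟩
  induction m using Nat.strong_induction_on generalizing X with
  | _ m ih =>
    by_cases h : OppS X Y
    · exact ⟨X, hX, h⟩
    · obtain ⟨u, hu, hs⟩ := step hF h
      obtain ⟨c, hc0, hc⟩ := hF.cc
      have h1 := (tendsto_tiv hF hσ hu hc X).eventually (hU.mem_nhds hX)
      have h2 : ∀ᶠ s : k in 𝓝[≠] 0, tiv hF hu (cc_smul hF.inv hc s) • X ∈ U :=
        h1.filter_mono nhdsWithin_le_nhds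
      have h3 : ∀ᶠ s : k in 𝓝[≠] 0, s ≠ 0 := eventually_mem_nhdsWithin
      obtain ⟨s, hs1, hs0⟩ := (h2.and h3).exists
      have hc' : s * c * σ s ≠ 0 :=
        mul_ne_zero (mul_ne_zero hs0 hc0) (by rwa [Ne, map_eq_zero])
      have hlt := hs _ hc' (cc_smul hF.inv hc s)
      exact ih _ (hlt.trans_eq hm) _ hs1 rfl

/-- the hypothesis `htr` of `prox_abs` -/
theorem opp_htr (hF : Frm σ ε J) (hσ : Continuous σ) {yp ym : SGr σ J j} (h : OppS yp ym)
    (y₀ : SGr σ J j) (U : Set (SGr σ J j)) (hU : IsOpen U) (hUn : U.Nonempty) :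
    ∃ g : FormGroup σ J, g • ym = y₀ ∧ g • yp ∈ U := by
  obtain ⟨X, hX, hXY⟩ := opp_dense hF hσ hU hUn y₀
  obtain ⟨g, h1, h2⟩ := trans_opp hF h hXY
  exact ⟨g, h2, by rw [h1]; exact hX⟩

end top

end Vale.Agent.P092.H631.P2
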