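import Vale.Agent.P092.H631.P2Contr

/-!
P092, TEAM P, TRACK 2 (and 3), row [P2-PROX] (helper631), part 4: **proximality** of a subgroup of
finite covolume of the group of a form `hyp r ε J₀` on the singular `j`-spaces, `j ≤ r`.
-/

set_option linter.all false

open Matrix Module Set Topology Filter

namespace Vale.Agent.P092.H631.P2

open Vale.Agent.P092.H303 (FormGroup Idx hyp torF torF_mem dgF hypAt_l hypAt_r)
open Vale.Agent.P092.H714.Cl
open Vale.Agent.P092.H370.Po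
open Vale.Agent.P092.H100.Gr (Gr Fr sp)
open Vale.Agent.P092.H514.NI (Covol)

section alg

variable {n : Type} [Fintype n] [DecidableEq n] {k : Type} [Field k]
  {σ : k →+* k} {ε : k} {J : Matrix n n k} {j : ℕ}

theorem hf_e (x : n → k) (b : n) :
    hf σ J x (Pi.single b 1) = x ⬝ᵥ (fun i => J i b) := by
  unfold hf
  have e : (fun l => σ ((Pi.single b (1 : k) : n → k) l)) = Pi.single b 1 := by
    funext l
    by_cases hl : l = b
    · subst hl; simp
    · simp [Pi.single_eq_of_ne hl]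
  rw [e, mulVec_single_one]
  rfl

/-- coordinate frames -/
def cf (A : Fin j → n) (hA : Function.Injective A) : Fr k n j :=
  ⟨fun a => Pi.single (A a) 1, by
    have h := (Pi.basisFun k n).linearIndependent.comp A hA
    have e : (Pi.basisFun k n ∘ A : Fin j → n → k) = fun a => Pi.single (A a) 1 := by
      funext a
      exact Pi.basisFun_apply k n (A a)
    rwa [e] at h⟩

theorem mem_cf {A : Fin j → n} (hA : Function.Injective A) {x : n → k}
    (hx : ∀ i, (∀ a, A a ≠ i) → x i = 0) : x ∈ (sp (cf (k := k) A hA)).1 := by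
  have e : x = ∑ a, x (A a) • (Pi.single (A a) 1 : n → k) := by
    funext i
    rw [Finset.sum_apply]
    by_cases h : ∃ a, A a = i
    · obtain ⟨a, rfl⟩ := h
      rw [Finset.sum_eq_single a]
      · simp
      · intro b _ hb
        have : A a ≠ A b := fun h => hb (hA h.symm)
        simp [Pi.single_eq_of_ne this]
      · intro h
        exact absurd (Finset.mem_univ a) h
    · push Not at h
      rw [hx i h, Finset.sum_eq_zero]
      intro a _
      simp [Pi.single_eq_of_ne (h a).symm]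
  rw [e]
  exact Submodule.sum_mem _ fun a _ => Submodule.smul_mem _ _ (Submodule.subset_span ⟨a, rfl⟩)

theorem hf_sp {v : Fr k n j} {x : n → k} (h : ∀ a, hf σ J x (v.1 a) = 0) :
    ∀ y ∈ (sp v).1, hf σ J x y = 0 := by
  intro y hy
  have h1 : (sp v).1 ≤ perp σ J (Submodule.span k {x}) := by
    change Submodule.span k (range v.1) ≤ _
    rw [Submodule.span_le]
    rintro _ ⟨a, rfl⟩
    refine mem_perp.2 fun z hz => ?_
    obtain ⟨c, rfl⟩ := Submodule.mem_span_singleton.1 hz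
    rw [hf_smul_left, h a, mul_zero]
  exact mem_perp.1 (h1 hy) x (Submodule.mem_span_singleton_self x)

theorem sing_sp (hF : Frm σ ε J) {v : Fr k n j} (h : ∀ a b, hf σ J (v.1 a) (v.1 b) = 0) :
    Sing σ J (sp v).1 := by
  intro x hx y hy
  refine hf_sp (fun a => ?_) y hy
  exact hF.symm_zero (hf_sp (fun b => h a b) x hx)

end alg

section hyp

variable {ι : Type} [Fintype ι] [DecidableEq ι] {k : Type} [Field k]
  {σ : k →+* k} {ε : k} {r j : ℕ} {J₀ : Matrix ι ι k}

/-- the indices of the first `j` hyperbolic pairs -/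
def iL (ι : Type) (hj : j ≤ r) (a : Fin j) : Idx r ι := .inl (.inl (Fin.castLE hj a))

/-- the dual indices -/
def iR (ι : Type) (hj : j ≤ r) (a : Fin j) : Idx r ι := .inl (.inr (Fin.castLE hj a))

theorem iL_inj (hj : j ≤ r) : Function.Injective (iL ι hj) := fun a b h =>
  Fin.castLE_injective hj (Sum.inl_injective (Sum.inl_injective h))

theorem iR_inj (hj : j ≤ r) : Function.Injective (iR ι hj) := fun a b h =>
  Fin.castLE_injective hj (Sum.inr_injective (Sum.inl_injective h))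

theorem hf_eR (x : Idx r ι → k) (i : Fin r) :
    hf σ (hyp r ε J₀) x (Pi.single (.inl (.inr i)) 1) = x (.inl (.inl i)) := by
  rw [hf_e]
  have e : (fun i' => hyp r ε J₀ i' (.inl (.inr i))) =
      fun i' => if i' = .inl (.inl i) then (1 : k) else 0 := by
    funext i'
    exact (hypAt_l r ε J₀ i).col i'
  rw [e]
  simp [dotProduct]

theorem hf_eL (x : Idx r ι → k) (i : Fin r) :
    hf σ (hyp r ε J₀) x (Pi.single (.inl (.inl i)) 1) = x (.inl (.inr i)) * ε := by
  rw [hf_e]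
  have e : (fun i' => hyp r ε J₀ i' (.inl (.inl i))) =
      fun i' => if i' = .inl (.inr i) then ε else 0 := by
    funext i'
    exact (hypAt_r r ε J₀ i).col i'
  rw [e]
  simp [dotProduct]

/-- the attracting space -/
def cP (hF : Frm σ ε (hyp r ε J₀)) (hj : j ≤ r) : SGr σ (hyp r ε J₀) j :=
  SGr.mk' (sp (cf (iL ι hj) (iL_inj hj))).1 (sing_sp hF fun a b => by
    change hf σ (hyp r ε J₀) (Pi.single (iL ι hj a) 1)
      (Pi.single (.inl (.inl (Fin.castLE hj b))) 1) = 0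
    rw [hf_eL, Pi.single_eq_of_ne (by simp [iL]), zero_mul]) (sp (cf (iL ι hj) (iL_inj hj))).2

/-- the repelling space -/
def cM (hF : Frm σ ε (hyp r ε J₀)) (hj : j ≤ r) : SGr σ (hyp r ε J₀) j :=
  SGr.mk' (sp (cf (iR ι hj) (iR_inj hj))).1 (sing_sp hF fun a b => by
    change hf σ (hyp r ε J₀) (Pi.single (iR ι hj a) 1)
      (Pi.single (.inl (.inr (Fin.castLE hj b))) 1) = 0
    rw [hf_eR, Pi.single_eq_of_ne (by simp [iR])]) (sp (cf (iR ι hj) (iR_inj hj))).2

/-- opposite to the repelling space -/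
theorem opp_cM (hF : Frm σ ε (hyp r ε J₀)) (hj : j ≤ r) {L : SGr σ (hyp r ε J₀) j}
    (h : OppS L (cM hF hj)) : ∀ x ∈ L.S, (∀ a, x (iL ι hj a) = 0) → x = 0 := by
  intro x hx hxa
  refine h x hx (hf_sp fun a => ?_)
  change hf σ (hyp r ε J₀) x (Pi.single (.inl (.inr (Fin.castLE hj a))) 1) = 0
  rw [hf_eR]
  exact hxa a

theorem cP_coord (hF : Frm σ ε (hyp r ε J₀)) (hj : j ≤ r) {x : Idx r ι → k}
    (hx : x ∈ (cP hF hj).S) (i : Idx r ι) (hi : ∀ a, iL ι hj a ≠ i) : x i = 0 := by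
  change x ∈ Submodule.span k (range fun a : Fin j => (Pi.single (iL ι hj a) 1 : Idx r ι → k))
    at hx
  rw [Submodule.mem_span_range_iff_exists_fun] at hx
  obtain ⟨c, rfl⟩ := hx
  rw [Finset.sum_apply, Finset.sum_eq_zero]
  intro a _
  simp [Pi.single_eq_of_ne (hi a).symm]

theorem opp_cP_cM (hF : Frm σ ε (hyp r ε J₀)) (hj : j ≤ r) : OppS (cP hF hj) (cM hF hj) := by
  intro x hx hy
  funext i
  by_cases h : ∃ a, iL ι hj a = i
  · obtain ⟨a, rfl⟩ := h
    have h1 := hy (Pi.single (iR ι hj a) 1) (Submodule.subset_span ⟨a, rfl⟩)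
    have h2 := hf_eR (σ := σ) (ε := ε) (J₀ := J₀) x (Fin.castLE hj a)
    exact h2.symm.trans h1
  · push Not at h
    exact cP_coord hF hj hx i h

/-- the cocharacter -/
def lj (r j : ℕ) : Fin r → ℤ := fun i => if i.1 < j then 1 else 0

/-- the exponents -/
def mj (r j : ℕ) (ι : Type) : Idx r ι → ℕ :=
  Sum.elim (Sum.elim (fun i => if i.1 < j then 0 else 1) (fun i => if i.1 < j then 2 else 1))
    (fun _ => 1)

theorem mj_iL (hj : j ≤ r) (a : Fin j) : mj r j ι (iL ι hj a) = 0 := by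
  change (if (Fin.castLE hj a).1 < j then 0 else 1) = 0
  rw [if_pos]
  exact a.2

theorem iL_of_mj (hj : j ≤ r) {i : Idx r ι} (h : ∀ a, iL ι hj a ≠ i) : mj r j ι i ≠ 0 := by
  rcases i with (i | i) | i
  · change (if i.1 < j then 0 else 1) ≠ 0
    rw [if_neg]
    · exact one_ne_zero
    · intro hi
      exact h ⟨i.1, hi⟩ rfl
  · change (if i.1 < j then 2 else 1) ≠ 0
    split_ifs <;> norm_num
  · exact one_ne_zero

/-- the wall element -/
noncomputable def wj {w : k} (hw : w ≠ 0) (hσ : σ w = w) (j : ℕ) :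
    FormGroup σ (hyp r ε J₀) := ⟨torF r ι hw (lj r j), torF_mem r ε J₀ hw hσ _⟩

theorem torF_inv {w : k} (hw : w ≠ 0) (l : Fin r → ℤ) :
    (torF r ι hw l)⁻¹ = torF r ι hw (-l) := by
  rw [inv_eq_iff_mul_eq_one]
  refine Subtype.ext ?_
  change diagonal (dgF r ι w l) * diagonal (dgF r ι w (-l)) = 1
  rw [diagonal_mul_diagonal, ← diagonal_one]
  congr 1
  funext i
  rcases i with (i | i) | i
  · change w ^ l i * w ^ (-l) i = 1
    rw [← zpow_add₀ hw, Pi.neg_apply, add_neg_cancel, zpow_zero]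
  · change w ^ (-l i) * w ^ (-(-l) i) = 1
    rw [← zpow_add₀ hw, Pi.neg_apply, neg_neg, neg_add_cancel, zpow_zero]
  · exact one_mul 1

theorem dg_wj {w : k} (hw : w ≠ 0) (hσ : σ w = w) (j : ℕ) :
    ∀ (v : Idx r ι → k) (i : Idx r ι), w ^ mj r j ι i * v i =
      w * (v ᵥ* ((wj (J₀ := J₀) (ε := ε) hw hσ j).1⁻¹ :
        SpecialLinearGroup (Idx r ι) k).1) i := by
  intro v i
  change _ = w * (v ᵥ* ((torF r ι hw (lj r j))⁻¹).1) i
  rw [torF_inv]
  change _ = w * (v ᵥ* diagonal (dgF r ι w (-lj r j))) i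
  rw [vecMul_diagonal]
  rcases i with (i | i) | i
  · change w ^ (if i.1 < j then 0 else 1) * v _ = w * (v _ * w ^ (-(if i.1 < j then 1 else 0) : ℤ))
    split_ifs with h
    · rw [pow_zero, one_mul, _root_.zpow_neg_one]
      field_simp
    · rw [pow_one, neg_zero, zpow_zero, mul_one]
  · change w ^ (if i.1 < j then 2 else 1) * v _ =
      w * (v _ * w ^ (-(-(if i.1 < j then 1 else 0)) : ℤ))
    split_ifs with h
    · rw [neg_neg, zpow_one]
      ring
    · rw [pow_one, neg_zero, neg_zero, zpow_zero, mul_one]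
  · change w ^ 1 * v _ = w * (v _ * 1)
    rw [pow_one, mul_one]

end hyp

section main

variable {ι : Type} [Fintype ι] [DecidableEq ι] {k : Type} [NontriviallyNormedField k]
  {σ : k →+* k} {ε : k} {r j : ℕ} {J₀ : Matrix ι ι k}

/-- a small element of the fixed field -/
theorem exists_small_fix (hinv : ∀ x : k, σ (σ x) = x) (hσ : Continuous σ) :
    ∃ w : k, w ≠ 0 ∧ σ w = w ∧ ‖w‖ < 1 := by
  obtain ⟨x, hx0, hx1⟩ := NormedField.exists_norm_lt_one k
  have h1 : Continuous fun s : k => ‖s * σ s‖ := by fun_prop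
  have h2 := h1.tendsto 0
  rw [zero_mul, norm_zero] at h2
  have h3 : Tendsto (fun N : ℕ => x ^ N) atTop (𝓝 0) :=
    tendsto_pow_atTop_nhds_zero_of_norm_lt_one hx1
  have h4 := (h2.comp h3).eventually (gt_mem_nhds (zero_lt_one' ℝ))
  obtain ⟨N, hN⟩ := h4.exists
  have hx : x ^ N ≠ 0 := pow_ne_zero _ (norm_pos_iff.1 hx0)
  refine ⟨x ^ N * σ (x ^ N), mul_ne_zero hx (by rwa [Ne, map_eq_zero]), ?_, hN⟩
  rw [map_mul, hinv, mul_comm]

variable [ProperSpace k] [SecondCountableTopology (FormGroup σ (hyp r ε J₀))]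
  [LocallyCompactSpace (FormGroup σ (hyp r ε J₀))]

/-- **[P2-PROX]**: proximality on the singular `j`-spaces, `j ≤ r` -/
theorem proxS (hF : Frm σ ε (hyp r ε J₀)) (hσ : Continuous σ) (hj : j ≤ r)
    (Γ : Subgroup (FormGroup σ (hyp r ε J₀))) (hΓ : Covol Γ) (z : SGr σ (hyp r ε J₀) j)
    (D : Set (SGr σ (hyp r ε J₀) j)) (hD : IsCompact D) (hDo : ∀ y ∈ D, OppS y z)
    (U : Set (SGr σ (hyp r ε J₀) j)) (hU : IsOpen U) (hUn : U.Nonempty) :
    ∃ γ ∈ Γ, ∀ y ∈ D, γ • y ∈ U := by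
  obtain ⟨w, hw0, hσw, hw1⟩ := exists_small_fix hF.inv hσ
  refine H673.Px.prox_abs (Y := SGr σ (hyp r ε J₀) j) continuous_smul Γ hΓ
    (wj (ε := ε) (J₀ := J₀) hw0 hσw j) (cP hF hj) (cM hF hj) OppS (opp_open hσ)
    (fun g x y h => h.smul g) ?_ (opp_htr hF hσ (opp_cP_cM hF hj)) z hD hDo hU hUn
  intro D hD hDo U hU
  refine contr_SGr hw1 hw0 (m := mj r j ι) (dg_wj hw0 hσw j) (iL ι hj) (mj_iL hj) _ ?_ hD
    (fun L hL => opp_cM hF hj (hDo L hL)) hU
  intro x hx
  exact mem_cf (iL_inj hj) fun i hi => hx i (iL_of_mj hj hi)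

/-- the same for a homomorphism `q` -/
theorem proxS_of (hF : Frm σ ε (hyp r ε J₀)) (hσ : Continuous σ) (hj : j ≤ r)
    {Γ : Type} [Group Γ] (q : Γ →* FormGroup σ (hyp r ε J₀)) (hΓ : Covol q.range)
    (z : SGr σ (hyp r ε J₀) j)
    (D : Set (SGr σ (hyp r ε J₀) j)) (hD : IsCompact D) (hDo : ∀ y ∈ D, OppS y z)
    (U : Set (SGr σ (hyp r ε J₀) j)) (hU : IsOpen U) (hUn : U.Nonempty) :
    ∃ γ, ∀ y ∈ D, q γ • y ∈ U := by
  obtain ⟨_, ⟨γ, rfl⟩, h⟩ := proxS hF hσ hj q.range hΓ z D hD hDo U hU hUn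
  exact ⟨γ, h⟩

end main

end Vale.Agent.P092.H631.P2
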