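import Vale.Agent.P092.H631.CLProx
import Vale.Agent.P092.CL.Lt

/-!
P092, TEAM P, TRACKS 2 and 3 (helper631), part 6: opposition in the concrete letters `CL.lt`:
openness, common opposites (the fields `o1`, `o2`, `m1`, `m2` of helper306's `PurIn`), and the
fields `prox1`, `prox2` of `CL.Geo`.
-/

set_option linter.all false

open Matrix Module Set Topology Filter MeasureTheory

namespace Vale.Agent.P092.H631.P2

open Vale.Agent.P092.H303 (FormGroup Idx hyp)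
open Vale.Agent.P092.H714.Cl
open Vale.Agent.P092.H370.Po
open Vale.Agent.P092.H514.NI (Covol)

section gen

variable {n : Type} [Fintype n] [DecidableEq n] {k : Type} [NontriviallyNormedField k]
  [ProperSpace k] {σ : k →+* k} {ε : k} {J : Matrix n n k} {j : ℕ}

/-- a common opposite of two spaces -/
theorem opp_meet₂ (hF : Frm σ ε J) (hσ : Continuous σ) (A B : SGr σ J j) :
    ∃ Y, OppS Y A ∧ OppS Y B := by
  obtain ⟨X, -, hX⟩ := opp_dense hF hσ isOpen_univ ⟨A, trivial⟩ A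
  obtain ⟨Y, hY, hYB⟩ := opp_dense hF hσ (opp_open hσ A) ⟨X, hX⟩ B
  exact ⟨Y, hY, hYB⟩

end gen

section lt

variable {k : Type} [NontriviallyNormedField k] [ProperSpace k] [MeasurableSpace k]
  {ι : Type} [Fintype ι] [DecidableEq ι] {s : ℕ} {σ : k →+* k} {ε : k} {J₀ : Matrix ι ι k}
  (hF : Frm σ ε (hyp (s + 2) ε J₀)) {w : k} (hw : w ≠ 0) (hσw : σ w = w) (μ₁ : Measure k)
  (μ₂ : Measure (CL.V2 σ ε))

theorem lt_opp1 (hW : WI σ (hyp (s + 2) ε J₀) (s + 2)) {x y : SGr σ (hyp (s + 2) ε J₀) 1} :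
    (CL.lt hF hw hσw μ₁ μ₂).opp1 x y ↔ OppS x y := opp1_iff_S hF hW (by omega)

theorem lt_opp2 (hW : WI σ (hyp (s + 2) ε J₀) (s + 2))
    {x y : SGr σ (hyp (s + 2) ε J₀) (s + 2)} :
    (CL.lt hF hw hσw μ₁ μ₂).opp2 x y ↔ OppS x y := opp2_iff_S hF hW

/-- field `o1` of `PurIn` -/
theorem lt_o1 (hW : WI σ (hyp (s + 2) ε J₀) (s + 2)) (hσ : Continuous σ) :
    IsOpen {p : SGr σ (hyp (s + 2) ε J₀) 1 × SGr σ (hyp (s + 2) ε J₀) 1 |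
      (CL.lt hF hw hσw μ₁ μ₂).opp1 p.1 p.2} := by
  have h := opp_open₂ (σ := σ) (J := hyp (s + 2) ε J₀) (j := 1) hσ
  convert h using 1
  ext p
  exact lt_opp1 hF hw hσw μ₁ μ₂ hW

/-- field `o2` of `PurIn` -/
theorem lt_o2 (hW : WI σ (hyp (s + 2) ε J₀) (s + 2)) (hσ : Continuous σ) :
    IsOpen {p : SGr σ (hyp (s + 2) ε J₀) (s + 2) × SGr σ (hyp (s + 2) ε J₀) (s + 2) |
      (CL.lt hF hw hσw μ₁ μ₂).opp2 p.1 p.2} := by
  have h := opp_open₂ (σ := σ) (J := hyp (s + 2) ε J₀) (j := s + 2) hσ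
  convert h using 1
  ext p
  exact lt_opp2 hF hw hσw μ₁ μ₂ hW

/-- field `m1` of `PurIn` -/
theorem lt_m1 (hW : WI σ (hyp (s + 2) ε J₀) (s + 2)) (hσ : Continuous σ)
    (a b : SGr σ (hyp (s + 2) ε J₀) 1) :
    ∃ y, (CL.lt hF hw hσw μ₁ μ₂).opp1 y a ∧ (CL.lt hF hw hσw μ₁ μ₂).opp1 y b := by
  obtain ⟨y, h1, h2⟩ := opp_meet₂ hF hσ a b
  exact ⟨y, (lt_opp1 hF hw hσw μ₁ μ₂ hW).2 h1, (lt_opp1 hF hw hσw μ₁ μ₂ hW).2 h2⟩

/-- field `m2` of `PurIn` -/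
theorem lt_m2 (hW : WI σ (hyp (s + 2) ε J₀) (s + 2)) (hσ : Continuous σ)
    (a b : SGr σ (hyp (s + 2) ε J₀) (s + 2)) :
    ∃ y, (CL.lt hF hw hσw μ₁ μ₂).opp2 y a ∧ (CL.lt hF hw hσw μ₁ μ₂).opp2 y b := by
  obtain ⟨y, h1, h2⟩ := opp_meet₂ hF hσ a b
  exact ⟨y, (lt_opp2 hF hw hσw μ₁ μ₂ hW).2 h1, (lt_opp2 hF hw hσw μ₁ μ₂ hW).2 h2⟩

/-- field `prox1` of `Geo` -/
theorem lt_prox1 (hW : WI σ (hyp (s + 2) ε J₀) (s + 2)) (hσ : Continuous σ) :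
    ∀ Γ : Subgroup (FormGroup σ (hyp (s + 2) ε J₀)), Covol Γ →
      ∀ (z : SGr σ (hyp (s + 2) ε J₀) 1) (D : Set (SGr σ (hyp (s + 2) ε J₀) 1)), IsCompact D →
      (∀ y ∈ D, (CL.lt hF hw hσw μ₁ μ₂).opp1 y z) →
      ∀ U : Set (SGr σ (hyp (s + 2) ε J₀) 1), IsOpen U → U.Nonempty →
        ∃ γ ∈ Γ, ∀ y ∈ D, γ • y ∈ U :=
  fun Γ hΓ z D hD hDo U hU hUn => prox1_geo hF hσ hW (by omega) Γ hΓ z D hD hDo U hU hUn

/-- field `prox2` of `Geo` -/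
theorem lt_prox2 (hW : WI σ (hyp (s + 2) ε J₀) (s + 2)) (hσ : Continuous σ) :
    ∀ Γ : Subgroup (FormGroup σ (hyp (s + 2) ε J₀)), Covol Γ →
      ∀ (z : SGr σ (hyp (s + 2) ε J₀) (s + 2)) (D : Set (SGr σ (hyp (s + 2) ε J₀) (s + 2))),
      IsCompact D → (∀ y ∈ D, (CL.lt hF hw hσw μ₁ μ₂).opp2 y z) →
      ∀ U : Set (SGr σ (hyp (s + 2) ε J₀) (s + 2)), IsOpen U → U.Nonempty →
        ∃ γ ∈ Γ, ∀ y ∈ D, γ • y ∈ U :=
  fun Γ hΓ z D hD hDo U hU hUn => prox2_geo hF hσ hW Γ hΓ z D hD hDo U hU hUn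

end lt

end Vale.Agent.P092.H631.P2
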