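import Vale.Agent.P092.CL.Defs
import Vale.Agent.P092.H631.P3Geo

/-!
P092, TEAM P, TRACK 3, row [P3-0] (helper631), in the letters of `CL/Defs`: [0] for every classical
group of Witt index two over an ultrametric field. `straightC`, `flippedC`: abstract letters with
`two points are on at most one line`.
-/

set_option linter.all false

open scoped InnerProductSpace
open ContinuousLinearMap Set MeasureTheory Filter Topology

namespace Vale.Agent.P092.H631.CZ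

open Vale.Agent.P092.RC (Cm Moore)
open Vale.Agent.P092.H232 (Nin)
open Vale.Agent.P092.CL
open Vale.Agent.P092.H631.P0 (i1_symm ul_of_sp)

section fam

variable {S : Type} [Group S] {E Γ K : Type} [Group E] [TopologicalSpace E] [Group Γ]
  [NormedAddCommGroup K] [InnerProductSpace ℂ K] [CompleteSpace K]
  {X Y : Type} [MulAction S X] [TopologicalSpace Y] [CompactSpace Y] [MulAction S Y]
  [ContinuousConstSMul S Y] {𝒰 : Ultrafilter ℕ} {b : S} {v0 : X} {ι : S →* E}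
  {π : E →* (K →L[ℂ] K)} {lam : Γ →* (K →L[ℂ] K)} {W : Set (K →L[ℂ] K)}
  {m : Set Γ → (K →L[ℂ] K)} {q : Γ → S} {NA : ℝ → ℝ → Set Y → Set Γ}

/-- a family of multiplicative letters of mass one -/
theorem hfam_of {U : X → (C(Y, ℂ) →ₗ[ℂ] (K →L[ℂ] K))}
    (h : UFam 𝒰 b v0 ι π lam W m q NA U 1) {F : X → (C(Y, ℂ) →⋆ₐ[ℂ] (K →L[ℂ] K))}
    (hF : ∀ v f, F v f = U v f) : HFam 𝒰 b v0 ι π lam W m q NA F where
  cm v f := by rw [hF]; exact h.cm v f
  cov γ v f := by rw [hF, hF]; exact h.cov γ v f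
  pcov g v f := by rw [hF, hF]; exact h.pcov g v f
  dom := by
    intro g u A hA hu ζ ε hε
    obtain ⟨R, hR⟩ := h.dom g u A hA hu ζ ε hε
    refine ⟨R, fun T hT => ?_⟩
    filter_upwards [hR T hT] with t ht
    rw [hF]
    exact ht
  agr := by
    intro v v' hv ξ hξ
    refine h.agr one_ne_zero v v' hv ξ fun f => ?_
    rw [← hF, ← hF]
    exact hξ f

end fam

section leg

variable {S P M V₁ V₂ : Type} [Group S] [MeasurableSpace V₁] [MeasurableSpace V₂]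
  [TopologicalSpace S] [MulAction S P] [TopologicalSpace P] [CompactSpace P]
  [ContinuousConstSMul S P] [MulAction S M] [TopologicalSpace M] [CompactSpace M]
  [ContinuousConstSMul S M] [NormedAddCommGroup V₁] [NormedAddCommGroup V₂]
  {E Γ K : Type} [Group E] [TopologicalSpace E] [Group Γ] [NormedAddCommGroup K]
  [InnerProductSpace ℂ K] [CompleteSpace K]
  {L : Lt S P M V₁ V₂} {𝒰 : Ultrafilter ℕ} {ι : S →* E}
  {π : E →* (K →L[ℂ] K)} {lam : Γ →* (K →L[ℂ] K)} {W : Set (K →L[ℂ] K)} {Ω : K}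
  {m : Set Γ → (K →L[ℂ] K)} {q : Γ → S}
  {U11 : P → (C(P, ℂ) →ₗ[ℂ] (K →L[ℂ] K))} {p11 : ℝ}
  {U12 : P → (C(M, ℂ) →ₗ[ℂ] (K →L[ℂ] K))} {p12 : ℝ}
  {U21 : M → (C(P, ℂ) →ₗ[ℂ] (K →L[ℂ] K))} {p21 : ℝ}
  {U22 : M → (C(M, ℂ) →ₗ[ℂ] (K →L[ℂ] K))} {p22 : ℝ}

/-- **[P3-0], straight types**, ultrametric, letters of `CL/Defs`. -/
theorem straightC [T2Space P] [T2Space M] [TotallyDisconnectedSpace P]
    [TotallyDisconnectedSpace M] (hI : IsClosed {p : P × M | L.In p.1 p.2})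
    (huniq : ∀ x x', x ≠ x' → ∀ z z', L.In x z → L.In x' z → L.In x z' → L.In x' z' → z = z')
    (two : ∀ c, ∃ l l', L.In c l ∧ L.In c l' ∧ l ≠ l')
    (two' : ∀ l, ∃ c c', L.In c l ∧ L.In c' l ∧ c ≠ c')
    (h : LegP L 𝒰 ι π lam W Ω m q U11 p11 U12 p12 U21 p21 U22 p22)
    (h1 : p11 = 1) (h2 : p22 = 1) :
    ∃ (Ec : P → (C(P, ℂ) →⋆ₐ[ℂ] (K →L[ℂ] K))) (F : M → (C(M, ℂ) →⋆ₐ[ℂ] (K →L[ℂ] K))),
      (∀ c f, Ec c f = U11 c f) ∧ (∀ l g, F l g = U22 l g) ∧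
      LegS L 𝒰 ι π lam W Ω m q Ec F := by
  subst h1; subst h2
  obtain ⟨Ec, F, hE, hF, hpl⟩ := P3.pl_td (I := L.In) (J := L.In) hI huniq h.u11.ul h.u22.ul
    h.i11 two two' (h.u11.agr one_ne_zero) (h.u22.agr one_ne_zero)
  exact ⟨Ec, F, hE, hF, ⟨h.base, hfam_of h.u11 hE, hfam_of h.u22 hF, hpl⟩⟩

/-- **[P3-0], flipped types**, ultrametric, letters of `CL/Defs`. -/
theorem flippedC [T2Space P] [T2Space M] [TotallyDisconnectedSpace P]
    [TotallyDisconnectedSpace M] (hI : IsClosed {p : P × M | L.In p.1 p.2})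
    (huniq : ∀ x x', x ≠ x' → ∀ z z', L.In x z → L.In x' z → L.In x z' → L.In x' z' → z = z')
    (two : ∀ c, ∃ l l', L.In c l ∧ L.In c l' ∧ l ≠ l')
    (two' : ∀ l, ∃ c c', L.In c l ∧ L.In c' l ∧ c ≠ c')
    (h : LegP L 𝒰 ι π lam W Ω m q U11 p11 U12 p12 U21 p21 U22 p22)
    (h1 : p12 = 1) (h2 : p21 = 1) :
    ∃ (Ec : P → (C(M, ℂ) →⋆ₐ[ℂ] (K →L[ℂ] K))) (F : M → (C(P, ℂ) →⋆ₐ[ℂ] (K →L[ℂ] K))),
      (∀ c f, Ec c f = U12 c f) ∧ (∀ l g, F l g = U21 l g) ∧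
      LegF L 𝒰 ι π lam W Ω m q Ec F := by
  subst h1; subst h2
  have hI' : IsClosed {p : M × P | flip L.In p.1 p.2} := hI.preimage continuous_swap
  have huniq' : ∀ z z' : M, z ≠ z' → ∀ x x' : P, flip L.In z x → flip L.In z' x →
      flip L.In z x' → flip L.In z' x' → x = x' := by
    intro z z' hz x x' a1 a2 a3 a4
    by_contra hx
    exact hz (huniq x x' hx z z' a1 a3 a2 a4)
  have i1 : ∀ c l, L.In c l → ∀ f g, Nin (flip L.In) f g → U12 c f * U21 l g = 0 := by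
    intro c l hcl g f hn
    exact i1_symm (ul_of_sp (h.u21.ul l)) (ul_of_sp (h.u12.ul c)) (h.i12 c l hcl) f g
      (fun x hx z hz => hn z hz x hx)
  obtain ⟨Ec, F, hE, hF, hpl⟩ := P3.pl_td (I := L.In) (J := flip L.In) hI' huniq' h.u12.ul
    h.u21.ul i1 two two' (h.u12.agr one_ne_zero) (h.u21.agr one_ne_zero)
  exact ⟨Ec, F, hE, hF, ⟨h.base, hfam_of h.u12 hE, hfam_of h.u21 hF, hpl⟩⟩

end leg

end Vale.Agent.P092.H631.CZ
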