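import Vale.Agent.P092.H631.P0Loc

/-!
P092, TEAM P, row [P-0A] (helper631): the assembly of [0] from the agreement fields of the leg
(two different lines agree nowhere), without ergodicity.
-/

set_option linter.all false

open scoped InnerProductSpace
open ContinuousLinearMap Set

namespace Vale.Agent.P092.H631.P0

open Vale.Agent.P092.RC (Cm Moore)
open Vale.Agent.P092.H828.P (UL Loc Loc0 Dis StarP)
open Vale.Agent.P092.H232 (Nin)

variable {G Γ K : Type} [Group G] [Group Γ] [NormedAddCommGroup K]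
  [InnerProductSpace ℂ K] [CompleteSpace K]
variable {C M Y Z : Type*} [TopologicalSpace Y] [CompactSpace Y] [TopologicalSpace Z]
  [CompactSpace Z]

/-- covariant families of positive maps -/
structure Dat (π : G →* (K →L[ℂ] K)) (lam : Γ →* (K →L[ℂ] K)) (W : Set (K →L[ℂ] K))
    (aC : G → C → C) (aM : G → M → M)
    (tY : Γ → C(Y, ℂ) → C(Y, ℂ)) (tZ : Γ → C(Z, ℂ) → C(Z, ℂ)) (p q : ℝ)
    (E : C → (C(Y, ℂ) →ₗ[ℂ] (K →L[ℂ] K))) (F : M → (C(Z, ℂ) →ₗ[ℂ] (K →L[ℂ] K))) : Prop where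
  p0 : p ≠ 0
  q0 : q ≠ 0
  ulE : ∀ c, UL (E c) p
  ulF : ∀ m, UL (F m) q
  cmE : ∀ c f, Cm W (E c f)
  cmF : ∀ m g, Cm W (F m g)
  covE : ∀ γ c f, lam γ * E c f * lam γ⁻¹ = E c (tY γ f)
  covF : ∀ γ m g, lam γ * F m g * lam γ⁻¹ = F m (tZ γ g)
  pE : ∀ e c f, π e * E c f * π e⁻¹ = E (aC e c) f
  pF : ∀ e m g, π e * F m g * π e⁻¹ = F (aM e m) g

variable {π : G →* (K →L[ℂ] K)} {lam : Γ →* (K →L[ℂ] K)} {W : Set (K →L[ℂ] K)}
  {I : C → M → Prop} {aC : G → C → C} {aM : G → M → M}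
  {tY : Γ → C(Y, ℂ) → C(Y, ℂ)} {tZ : Γ → C(Z, ℂ) → C(Z, ℂ)} {p q : ℝ}
  {E : C → (C(Y, ℂ) →ₗ[ℂ] (K →L[ℂ] K))} {F : M → (C(Z, ℂ) →ₗ[ℂ] (K →L[ℂ] K))}

/-- the dual data -/
theorem Dat.dual (h : Dat π lam W aC aM tY tZ p q E F) : Dat π lam W aM aC tZ tY q p F E where
  p0 := h.q0
  q0 := h.p0
  ulE := h.ulF
  ulF := h.ulE
  cmE := h.cmF
  cmF := h.cmE
  covE := h.covF
  covF := h.covE
  pE := h.pF
  pF := h.pE

/-- #6726 (3) from two lines which agree nowhere -/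
theorem Dat.dis (h : Dat π lam W aC aM tY tZ p q E F)
    (two : ∀ c, ∃ m m', I c m ∧ I c m' ∧ m ≠ m')
    (agr : ∀ m m', m ≠ m' → ∀ ζ, (∀ g, F m g ζ = F m' g ζ) → ζ = 0)
    (loc : ∀ c m m', I c m → I c m' → Loc (E c) (E c) (F m) (F m')) (c : C) :
    Dis (E c) (E c) := by
  obtain ⟨m, m', hm, hm', hne⟩ := two c
  exact H828.P.dis_of_loc (h.ulE c) h.p0 (h.ulF m).star (h.ulF m').star (loc c m m' hm hm')
    (loc c m m' hm hm') (agr m m' hne)

/-- **[P-0A]**, output. -/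
theorem Dat.out (h : Dat π lam W aC aM tY tZ p q E F) (dE : ∀ c, Dis (E c) (E c))
    (dF : ∀ m, Dis (F m) (F m)) (loc0 : ∀ c m, I c m → Loc0 (E c) (E c) (F m)) :
    ∃ E' F', Out π lam W I aC aM tY tZ p q E F E' F' := by
  have hp : (p : ℂ) ≠ 0 := by exact_mod_cast h.p0
  have hq : (q : ℂ) ≠ 0 := by exact_mod_cast h.q0
  have mE : ∀ c f f', E c f * E c f' = (p : ℂ) • E c (f * f') := fun c f f' =>
    (h.ulE c).mul_of_disj (h.ulE c) (dE c) f f'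
  have mF : ∀ m f f', F m f * F m f' = (q : ℂ) • F m (f * f') := fun m f f' =>
    (h.ulF m).mul_of_disj (h.ulF m) (dF m) f f'
  let E' : C → (C(Y, ℂ) →⋆ₐ[ℂ] (K →L[ℂ] K)) := fun c => (h.ulE c).hom h.p0 (mE c)
  let F' : M → (C(Z, ℂ) →⋆ₐ[ℂ] (K →L[ℂ] K)) := fun m => (h.ulF m).hom h.q0 (mF m)
  have eE : ∀ c f, E' c f = (p : ℂ)⁻¹ • E c f := fun c f => rfl
  have eF : ∀ m g, F' m g = (q : ℂ)⁻¹ • F m g := fun m g => rfl
  refine ⟨E', F', ?_⟩
  refine ⟨?_, ?_, ?_, ?_, ?_, ?_, ?_, ?_, ?_⟩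
  · intro c f
    rw [eE, smul_smul, mul_inv_cancel₀ hp, one_smul]
  · intro m g
    rw [eF, smul_smul, mul_inv_cancel₀ hq, one_smul]
  · intro c f w hw
    rw [eE, smul_mul_assoc, h.cmE c f w hw, mul_smul_comm]
  · intro m g w hw
    rw [eF, smul_mul_assoc, h.cmF m g w hw, mul_smul_comm]
  · intro γ c f
    rw [eE, eE, mul_smul_comm, smul_mul_assoc, h.covE]
  · intro γ m g
    rw [eF, eF, mul_smul_comm, smul_mul_assoc, h.covF]
  · intro e c f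
    rw [eE, eE, mul_smul_comm, smul_mul_assoc, h.pE]
  · intro e m g
    rw [eF, eF, mul_smul_comm, smul_mul_assoc, h.pF]
  · intro c m hcm f g
    have h1 := (h.ulE c).comm_of_local h.p0 (F m g)
      (fun f f' hd => loc0 c m hcm f f' hd g) f
    rw [eE, eF, smul_mul_smul_comm, smul_mul_smul_comm, h1, mul_comm (p : ℂ)⁻¹]

/-- **[P-0A] over an ultrametric field**: everything from (I1) for incident pairs and agreement. -/
theorem Dat.out_td [T2Space Y] [T2Space Z] [TotallyDisconnectedSpace Y]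
    [TotallyDisconnectedSpace Z] (h : Dat π lam W aC aM tY tZ p q E F) {J : Y → Z → Prop}
    (hJ : IsClosed {q : Y × Z | J q.1 q.2})
    (huniq : ∀ x x', x ≠ x' → ∀ z z', J x z → J x' z → J x z' → J x' z' → z = z')
    (i1 : ∀ c m, I c m → ∀ u v, Nin J u v → E c u * F m v = 0)
    (two : ∀ c, ∃ m m', I c m ∧ I c m' ∧ m ≠ m') (two' : ∀ m, ∃ c c', I c m ∧ I c' m ∧ c ≠ c')
    (agrF : ∀ m m', m ≠ m' → ∀ ζ, (∀ g, F m g ζ = F m' g ζ) → ζ = 0)
    (agrE : ∀ c c', c ≠ c' → ∀ ζ, (∀ f, E c f ζ = E c' f ζ) → ζ = 0) :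
    ∃ E' F', Out π lam W I aC aM tY tZ p q E F E' F' := by
  have hJ' : IsClosed {q : Z × Y | J q.2 q.1} := hJ.preimage continuous_swap
  have huniq' : ∀ z z' : Z, z ≠ z' → ∀ x x', J x z → J x z' → J x' z → J x' z' → x = x' := by
    intro z z' hz x x' h1 h2 h3 h4
    by_contra hx
    exact hz (huniq x x' hx z z' h1 h3 h2 h4)
  have i1' : ∀ m c, I c m → ∀ v u, Nin (fun z x => J x z) v u → F m v * E c u = 0 := by
    intro m c hcm v u hn
    exact i1_symm (h.ulE c) (h.ulF m) (i1 c m hcm) u v (fun x hx z hz => hn z hz x hx)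
  have dE : ∀ c, Dis (E c) (E c) := h.dis two agrF fun c m m' hm hm' =>
    loc_td hJ huniq (h.ulE c) (h.ulF m) (h.ulF m') (i1 c m hm) (i1 c m' hm')
  have dF : ∀ m, Dis (F m) (F m) := h.dual.dis (I := fun m c => I c m) two' agrE
    fun m c c' hc hc' => loc_td (J := fun z x => J x z) hJ' huniq' (h.ulF m) (h.ulE c) (h.ulE c')
      (i1' m c hc) (i1' m c' hc')
  exact h.out dE dF fun c m hcm => loc0_td hJ huniq (h.ulE c) (h.ulF m) (i1 c m hcm) (dE c)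

end Vale.Agent.P092.H631.P0
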