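import Vale.Agent.P092.H631.P0Core
import Vale.Agent.P092.H495.GrTd
import Vale.Agent.P092.SP.UL

/-!
P092, TEAM P, row [P-0A] (helper631): the locality inputs of the assembly over an ultrametric
field, from (I1); the letters `SP.UL`.
-/

set_option linter.all false

open scoped InnerProductSpace
open ContinuousLinearMap Set

namespace Vale.Agent.P092.H631.P0

open Vale.Agent.P092.RC (Cm Moore)
open Vale.Agent.P092.H828.P (UL Loc Loc0 Dis)
open Vale.Agent.P092.H232 (Nin)

section ul

variable {Y K : Type*} [TopologicalSpace Y] [CompactSpace Y] [NormedAddCommGroup K]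
  [InnerProductSpace ℂ K] [CompleteSpace K]

/-- the two forms of the letter -/
theorem ul_of_sp {E : C(Y, ℂ) →ₗ[ℂ] (K →L[ℂ] K)} {p : ℝ} (h : SP.UL E p) : UL E p where
  one := h.one
  star := h.star
  bes := by
    intro ι s v ξ
    have e := s.equivFin
    have h1 := h.bes s.card (fun i => v (e.symm i)) ξ
    have h2 : ∑ i : Fin s.card, ‖E (v (e.symm i)) ξ‖ ^ 2 = ∑ i ∈ s, ‖E (v i) ξ‖ ^ 2 := by
      rw [← Finset.sum_coe_sort s (fun i => ‖E (v i) ξ‖ ^ 2)]
      exact Equiv.sum_comp e.symm (fun i : s => ‖E (v i) ξ‖ ^ 2)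
    have h3 : ∑ i : Fin s.card, star (v (e.symm i)) * v (e.symm i) =
        ∑ i ∈ s, star (v i) * v i := by
      rw [← Finset.sum_coe_sort s (fun i => star (v i) * v i)]
      exact Equiv.sum_comp e.symm (fun i : s => star (v i) * v i)
    rw [h2, h3] at h1
    exact h1

end ul

section td

variable {X Z K : Type*} [TopologicalSpace X] [CompactSpace X] [T2Space X]
  [TopologicalSpace Z] [CompactSpace Z] [T2Space Z]
  [NormedAddCommGroup K] [InnerProductSpace ℂ K] [CompleteSpace K]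

theorem tsup_star' {X : Type*} [TopologicalSpace X] (u : C(X, ℂ)) :
    tsupport ⇑(star u) = tsupport ⇑u := by
  unfold tsupport
  congr 1
  ext x; simp [Function.mem_support]

theorem nin_star' {X Z : Type*} [TopologicalSpace X] [TopologicalSpace Z] {J : X → Z → Prop}
    {u : C(X, ℂ)} {v : C(Z, ℂ)} (h : Nin J u v) : Nin J (star u) (star v) := by
  intro x hx z hz
  rw [tsup_star'] at hx hz
  exact h x hx z hz

/-- (I1) in the other order -/
theorem i1_symm {J : X → Z → Prop} {E : C(X, ℂ) →ₗ[ℂ] (K →L[ℂ] K)}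
    {F : C(Z, ℂ) →ₗ[ℂ] (K →L[ℂ] K)} {p q : ℝ} (hE : UL E p) (hF : UL F q)
    (h : ∀ u v, Nin J u v → E u * F v = 0) : ∀ u v, Nin J u v → F v * E u = 0 := by
  intro u v hn
  have h1 := congrArg star (h _ _ (nin_star' hn))
  rwa [star_mul, ← hE.star, ← hF.star, star_star, star_star, star_zero] at h1

variable [TotallyDisconnectedSpace Z] {J : X → Z → Prop}
  (hJ : IsClosed {q : X × Z | J q.1 q.2})
  (huniq : ∀ x x', x ≠ x' → ∀ z z', J x z → J x' z → J x z' → J x' z' → z = z')
  {E : C(X, ℂ) →ₗ[ℂ] (K →L[ℂ] K)} {F F' : C(Z, ℂ) →ₗ[ℂ] (K →L[ℂ] K)} {p q : ℝ}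

include hJ huniq

/-- #6726 (1), totally disconnected case -/
theorem loc_td (hE : UL E p) (hF : UL F q) (hF' : UL F' q)
    (h : ∀ u v, Nin J u v → E u * F v = 0) (h' : ∀ u v, Nin J u v → E u * F' v = 0) :
    Loc E E F F' := by
  intro f f' hd g
  have r := i1_symm hE hF h
  have r' := i1_symm hE hF' h'
  have key := H495.cut_zero hJ huniq (⟨E, hE.continuous⟩ : C(X, ℂ) →L[ℂ] (K →L[ℂ] K))
    (⟨F - F', hF.continuous.sub hF'.continuous⟩ : C(Z, ℂ) →L[ℂ] (K →L[ℂ] K))
    (fun u v hn => by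
      change E u * (F v - F' v) = 0
      rw [mul_sub, h u v hn, h' u v hn, sub_zero])
    (fun u v hn => by
      change (F v - F' v) * E u = 0
      rw [sub_mul, r u v hn, r' u v hn, sub_zero])
    (fun u a _ => by
      change E u * (F 1 - F' 1) * E a = 0
      rw [hF.one, hF'.one, sub_self, mul_zero, zero_mul]) g f f' hd
  exact key

/-- #6726 (5), totally disconnected case -/
theorem loc0_td (hE : UL E p) (hF : UL F q) (h : ∀ u v, Nin J u v → E u * F v = 0)
    (hD : Dis E E) : Loc0 E E F := by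
  intro f f' hd g
  have r := i1_symm hE hF h
  have key := H495.cut_zero hJ huniq (⟨E, hE.continuous⟩ : C(X, ℂ) →L[ℂ] (K →L[ℂ] K))
    (⟨F, hF.continuous⟩ : C(Z, ℂ) →L[ℂ] (K →L[ℂ] K)) h r
    (fun u a hd => by
      change E u * F 1 * E a = 0
      rw [hF.one, mul_smul_comm, mul_one, smul_mul_assoc, hD u a hd, smul_zero]) g f f' hd
  exact key

end td

end Vale.Agent.P092.H631.P0
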