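import Vale.Agent.P092.H631.P0Leg
import Vale.Agent.P092.H616.SynE
import Vale.Agent.P092.H283.Syn3
import Vale.Agent.P092.H283.Geo1

/-!
P092, TEAM P, row [P-0A] (helper631): [0] in the letters of `SP/Defs` over the real field, from a
realisation of points and lines by projections (`GeoR`), and for `k = ℝ`.
-/

set_option linter.all false

open scoped InnerProductSpace
open ContinuousLinearMap Set MeasureTheory Filter Topology

namespace Vale.Agent.P092.H631.P0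

open Vale.Agent.P092.RC (Cm Moore GG PG YY y0)
open Vale.Agent.P092.H828.P (UL Loc Loc0 Dis)
open Vale.Agent.P092.H232 (Nin)
open Vale.Agent.P092.H616.Syn (Geo Rel bdd_of_UL)

section abs

variable {n : ℕ} {Y Z K : Type*} [TopologicalSpace Y] [CompactSpace Y] [T2Space Y]
  [TopologicalSpace Z] [CompactSpace Z] [T2Space Z] [NormedAddCommGroup K]
  [InnerProductSpace ℂ K] [CompleteSpace K]

/-- points and lines as real projections, with their incidence -/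
structure GeoR (J : Y → Z → Prop) (X : C(Y, Matrix (Fin n) (Fin n) ℝ))
    (P : C(Z, Matrix (Fin n) (Fin n) ℝ)) : Prop where
  geo : Geo X P
  inc : ∀ y z, J y z ↔ P z * X y = X y

variable {J : Y → Z → Prop} {X : C(Y, Matrix (Fin n) (Fin n) ℝ)}
  {P : C(Z, Matrix (Fin n) (Fin n) ℝ)}
  {E E' : C(Y, ℂ) →ₗ[ℂ] (K →L[ℂ] K)} {F F' : C(Z, ℂ) →ₗ[ℂ] (K →L[ℂ] K)} {p q : ℝ}

theorem GeoR.rel (h : GeoR J X P) (hp : 0 ≤ p) (hq : 0 ≤ q) (hE : UL E p) (hF : UL F q)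
    (i1 : ∀ u v, Nin J u v → E u * F v = 0) : Rel X P E F where
  l := H283.Syn.rel_l h.geo.pt h.geo.ln hp hq hE hF
    (fun f g hfg => i1 f g fun x hx z hz hJ => hfg x hx z hz ((h.inc x z).1 hJ))
  r := H283.Syn.rel_r h.geo.pt h.geo.ln hp hq hE hF
    (fun f g hfg => i1 f g fun x hx z hz hJ => hfg x hx z hz ((h.inc x z).1 hJ))

/-- #6726 (1) over the reals -/
theorem GeoR.loc (h : GeoR J X P) (hp : 0 ≤ p) (hq : 0 ≤ q) (hE : UL E p) (hF : UL F q)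
    (hF' : UL F' q) (i1 : ∀ u v, Nin J u v → E u * F v = 0)
    (i1' : ∀ u v, Nin J u v → E u * F' v = 0) : Loc E E F F' :=
  H616.Syn.loc h.geo (bdd_of_UL hE) (bdd_of_UL hE) (bdd_of_UL hF) (bdd_of_UL hF')
    (h.rel hp hq hE hF i1) (h.rel hp hq hE hF' i1') (h.rel hp hq hE hF i1)
    (h.rel hp hq hE hF' i1') (hF.one.trans hF'.one.symm)

/-- #6726 (5) over the reals -/
theorem GeoR.loc0 (h : GeoR J X P) (hp : 0 ≤ p) (hq : 0 ≤ q) (hE : UL E p) (hF : UL F q)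
    (i1 : ∀ u v, Nin J u v → E u * F v = 0) (hD : Dis E E) : Loc0 E E F :=
  H616.Syn.loc0 h.geo (bdd_of_UL hE) (bdd_of_UL hE) (bdd_of_UL hF)
    (h.rel hp hq hE hF i1) (h.rel hp hq hE hF i1) hD hF.one

/-- #6726 (1) over the reals, lines at the ends -/
theorem GeoR.locD (h : GeoR J X P) (hp : 0 ≤ p) (hq : 0 ≤ q) (hE : UL E p) (hE' : UL E' p)
    (hF : UL F q) (i1 : ∀ u v, Nin J u v → E u * F v = 0)
    (i1' : ∀ u v, Nin J u v → E' u * F v = 0) : Loc F F E E' :=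
  H616.Syn.locD h.geo (bdd_of_UL hF) (bdd_of_UL hF) (bdd_of_UL hE) (bdd_of_UL hE')
    (h.rel hp hq hE hF i1) (h.rel hp hq hE' hF i1') (h.rel hp hq hE hF i1)
    (h.rel hp hq hE' hF i1') (hE.one.trans hE'.one.symm)

/-- #6726 (5) over the reals, lines at the ends -/
theorem GeoR.loc0D (h : GeoR J X P) (hp : 0 ≤ p) (hq : 0 ≤ q) (hE : UL E p) (hF : UL F q)
    (i1 : ∀ u v, Nin J u v → E u * F v = 0) (hD : Dis F F) : Loc0 F F E :=
  H616.Syn.loc0D h.geo (bdd_of_UL hF) (bdd_of_UL hF) (bdd_of_UL hE)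
    (h.rel hp hq hE hF i1) (h.rel hp hq hE hF i1) hD hE.one

end abs

open Vale.Agent.P092.SP
open Vale.Agent.P092.SP4

section leg

variable {k : Type} [NontriviallyNormedField k] [ProperSpace k] [MeasurableSpace k]
  {E Γ K : Type} [Group E] [TopologicalSpace E] [Group Γ] [NormedAddCommGroup K]
  [InnerProductSpace ℂ K] [CompleteSpace K]
  {μ : Measure k} {w : kˣ} {𝒰 : Ultrafilter ℕ} {ι : S4 k →* E} {a : E →* PG k 4}
  {π : E →* (K →L[ℂ] K)} {lam : Γ →* (K →L[ℂ] K)} {W : Set (K →L[ℂ] K)} {Ω : K}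
  {m : Set Γ → (K →L[ℂ] K)} {q : Γ → S4 k}
  {X : C(YY k 3, Matrix (Fin 4) (Fin 4) ℝ)} {P : C(LL k, Matrix (Fin 4) (Fin 4) ℝ)}
  {U11 : YY k 3 → (C(YY k 3, ℂ) →ₗ[ℂ] (K →L[ℂ] K))} {p11 : ℝ}
  {U12 : YY k 3 → (C(LL k, ℂ) →ₗ[ℂ] (K →L[ℂ] K))} {p12 : ℝ}
  {U21 : LL k → (C(YY k 3, ℂ) →ₗ[ℂ] (K →L[ℂ] K))} {p21 : ℝ}
  {U22 : LL k → (C(LL k, ℂ) →ₗ[ℂ] (K →L[ℂ] K))} {p22 : ℝ}

/-- **[P-0], straight**, from a realisation by real projections. -/
theorem straight_geo (hG : GeoR (on (k := k)) X P)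
    (h : LegP μ w 𝒰 ι a π lam W Ω m q U11 p11 U12 p12 U21 p21 U22 p22)
    (h1 : p11 = 1) (h2 : p22 = 1) :
    ∃ Ec F, LegC on μ w 𝒰 ι a π lam W Ω m q (NA1 q) (NA2 q) Ec F ∧
      (∀ c f, Ec c f = U11 c f) ∧ ∀ l g, F l g = U22 l g := by
  subst h1; subst h2
  refine legC_of_loc h.base h.u11 h.u22 h.i11 ?_ ?_ ?_
  · intro c l l' hl hl'
    exact hG.loc zero_le_one zero_le_one (ul_of_sp (h.u11.ul c)) (ul_of_sp (h.u22.ul l))
      (ul_of_sp (h.u22.ul l')) (h.i11 c l hl) (h.i11 c l' hl')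
  · intro c c' l hc hc'
    exact hG.locD zero_le_one zero_le_one (ul_of_sp (h.u11.ul c)) (ul_of_sp (h.u11.ul c'))
      (ul_of_sp (h.u22.ul l)) (h.i11 c l hc) (h.i11 c' l hc')
  · intro c l hcl hd
    exact hG.loc0 zero_le_one zero_le_one (ul_of_sp (h.u11.ul c)) (ul_of_sp (h.u22.ul l))
      (h.i11 c l hcl) hd

/-- **[P-0], flipped**, from a realisation by real projections. -/
theorem flipped_geo (hG : GeoR (on (k := k)) X P)
    (h : LegP μ w 𝒰 ι a π lam W Ω m q U11 p11 U12 p12 U21 p21 U22 p22)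
    (h1 : p12 = 1) (h2 : p21 = 1) :
    ∃ Ec F, LegC (flip on) μ w 𝒰 ι a π lam W Ω m q (NA2 q) (NA1 q) Ec F ∧
      (∀ c f, Ec c f = U12 c f) ∧ ∀ l g, F l g = U21 l g := by
  subst h1; subst h2
  refine legC_of_loc (IT := flip on) h.base h.u12 h.u21 ?_ ?_ ?_ ?_
  · intro c l hcl g f hn
    exact i1_symm (ul_of_sp (h.u21.ul l)) (ul_of_sp (h.u12.ul c)) (h.i12 c l hcl) f g
      (fun x hx z hz => hn z hz x hx)
  · intro c l l' hl hl'
    exact hG.locD zero_le_one zero_le_one (ul_of_sp (h.u21.ul l)) (ul_of_sp (h.u21.ul l'))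
      (ul_of_sp (h.u12.ul c)) (h.i12 c l hl) (h.i12 c l' hl')
  · intro c c' l hc hc'
    exact hG.loc zero_le_one zero_le_one (ul_of_sp (h.u21.ul l)) (ul_of_sp (h.u12.ul c))
      (ul_of_sp (h.u12.ul c')) (h.i12 c l hc) (h.i12 c' l hc')
  · intro c l hcl hd
    exact hG.loc0D zero_le_one zero_le_one (ul_of_sp (h.u21.ul l)) (ul_of_sp (h.u12.ul c))
      (h.i12 c l hcl) hd

end leg

section real

open Vale.Agent.P092.H283.Geo (pp gp pp_cont gp_cont pp_inj gp_inj pt_pp ln_gp inc_iff)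

/-- real points and isotropic lines as projections -/
theorem geoR_real : GeoR (on (k := ℝ))
    (⟨fun x => pp x, pp_cont⟩ : C(YY ℝ 3, Matrix (Fin 4) (Fin 4) ℝ))
    (⟨fun l => gp l.1, gp_cont.comp val_cont⟩ : C(LL ℝ, Matrix (Fin 4) (Fin 4) ℝ)) where
  geo := by
    refine ⟨?_, ?_, ?_, ?_⟩
    · intro x y h
      exact pp_inj h
    · intro l l' h
      exact Subtype.ext (gp_inj h)
    · intro x
      exact pt_pp x
    · intro l
      exact ln_gp l.1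
  inc := by
    intro x l
    exact (inc_iff x l.1).symm

variable [MeasurableSpace ℝ]
  {E Γ K : Type} [Group E] [TopologicalSpace E] [Group Γ] [NormedAddCommGroup K]
  [InnerProductSpace ℂ K] [CompleteSpace K]
  {μ : Measure ℝ} {w : ℝˣ} {𝒰 : Ultrafilter ℕ} {ι : S4 ℝ →* E} {a : E →* PG ℝ 4}
  {π : E →* (K →L[ℂ] K)} {lam : Γ →* (K →L[ℂ] K)} {W : Set (K →L[ℂ] K)} {Ω : K}
  {m : Set Γ → (K →L[ℂ] K)} {q : Γ → S4 ℝ}
  {U11 : YY ℝ 3 → (C(YY ℝ 3, ℂ) →ₗ[ℂ] (K →L[ℂ] K))} {p11 : ℝ}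
  {U12 : YY ℝ 3 → (C(LL ℝ, ℂ) →ₗ[ℂ] (K →L[ℂ] K))} {p12 : ℝ}
  {U21 : LL ℝ → (C(YY ℝ 3, ℂ) →ₗ[ℂ] (K →L[ℂ] K))} {p21 : ℝ}
  {U22 : LL ℝ → (C(LL ℝ, ℂ) →ₗ[ℂ] (K →L[ℂ] K))} {p22 : ℝ}

/-- **[P-0], straight, real.** -/
theorem straight_real (h : LegP μ w 𝒰 ι a π lam W Ω m q U11 p11 U12 p12 U21 p21 U22 p22)
    (h1 : p11 = 1) (h2 : p22 = 1) :
    ∃ Ec F, LegC on μ w 𝒰 ι a π lam W Ω m q (NA1 q) (NA2 q) Ec F ∧
      (∀ c f, Ec c f = U11 c f) ∧ ∀ l g, F l g = U22 l g :=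
  straight_geo geoR_real h h1 h2

/-- **[P-0], flipped, real.** -/
theorem flipped_real (h : LegP μ w 𝒰 ι a π lam W Ω m q U11 p11 U12 p12 U21 p21 U22 p22)
    (h1 : p12 = 1) (h2 : p21 = 1) :
    ∃ Ec F, LegC (flip on) μ w 𝒰 ι a π lam W Ω m q (NA2 q) (NA1 q) Ec F ∧
      (∀ c f, Ec c f = U12 c f) ∧ ∀ l g, F l g = U21 l g :=
  flipped_geo geoR_real h h1 h2

end real

end Vale.Agent.P092.H631.P0
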