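import Vale.Agent.P092.H631.P0Real
import Vale.Agent.P092.SP.Blocks

/-!
P092, TEAM P, row [P-0A] (helper631): the joints [P-0] of `SP/Blocks`, both types, over every
ultrametric local field and over the real field.
-/

set_option linter.all false

open MeasureTheory

namespace Vale.Agent.P092.H631.P0

open Vale.Agent.P092.SP

section td

variable (k : Type) [NontriviallyNormedField k] [ProperSpace k] [IsUltrametricDist k]
  [MeasurableSpace k] (μ : Measure k)

/-- **[P-0], straight types, ultrametric.** -/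
theorem zeroStmt_td : ZeroStmt k μ := by
  intro E Γ K _ _ _ _ _ _ w 𝒰 ι a π lam W Ω m q U11 p11 U12 p12 U21 p21 U22 p22 h h1 h2
  obtain ⟨Ec, F, hl, hE, hF⟩ := straight_td h h1 h2
  exact ⟨Ec, F, hE, hF, hl⟩

/-- **[P-0], flipped types, ultrametric.** -/
theorem zeroStmt_td' : ZeroStmt' k μ := by
  intro E Γ K _ _ _ _ _ _ w 𝒰 ι a π lam W Ω m q U11 p11 U12 p12 U21 p21 U22 p22 h h1 h2
  obtain ⟨Ec, F, hl, hE, hF⟩ := flipped_td h h1 h2
  exact ⟨Ec, F, hE, hF, hl⟩

end td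

section real

variable [MeasurableSpace ℝ] (μ : Measure ℝ)

/-- **[P-0], straight types, real.** -/
theorem zeroStmt_real : ZeroStmt ℝ μ := by
  intro E Γ K _ _ _ _ _ _ w 𝒰 ι a π lam W Ω m q U11 p11 U12 p12 U21 p21 U22 p22 h h1 h2
  obtain ⟨Ec, F, hl, hE, hF⟩ := straight_real h h1 h2
  exact ⟨Ec, F, hE, hF, hl⟩

/-- **[P-0], flipped types, real.** -/
theorem zeroStmt_real' : ZeroStmt' ℝ μ := by
  intro E Γ K _ _ _ _ _ _ w 𝒰 ι a π lam W Ω m q U11 p11 U12 p12 U21 p21 U22 p22 h h1 h2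
  obtain ⟨Ec, F, hl, hE, hF⟩ := flipped_real h h1 h2
  exact ⟨Ec, F, hE, hF, hl⟩

end real

end Vale.Agent.P092.H631.P0
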