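import Vale.Agent.P092.H631.P2Dense
import Vale.Agent.P092.H673.P.Rec

/-!
P092, TEAM P, TRACK 2 (and 3), row [P2-PROX] (helper631), part 3: a diagonal element contracts
the `j`-spaces transversal to the coordinate space of its small eigenvalues to the coordinate
space of the large one.
-/

set_option linter.all false

open Matrix Module Set Topology Filter

namespace Vale.Agent.P092.H631.P2

open Vale.Agent.P092.H303 (FormGroup)
open Vale.Agent.P092.H714.Cl
open Vale.Agent.P092.H370.Po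
open Vale.Agent.P092.H100.Gr (Gr Fr sp sp_cont sp_open sp_surj sp_oq fr_val_cont mn mn_cont li_of_mn
  li_iff)

section contr

variable {n : Type} [Fintype n] [DecidableEq n] {k : Type} [NontriviallyNormedField k] {j : ℕ}

/-- the contracting family -/
def ge (m : n → ℕ) (s : k) (v : Fin j → n → k) : Fin j → n → k := fun b i => s ^ m i * v b i

theorem ge_cont (m : n → ℕ) :
    Continuous fun p : k × (Fin j → n → k) => ge m p.1 p.2 := by
  unfold ge
  fun_prop

/-- `b` is, up to the scalar `w⁻¹`, the diagonal matrix of the `w ^ m i` -/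
def Dg (b : SpecialLinearGroup n k) (w : k) (m : n → ℕ) : Prop :=
  ∀ (v : n → k) (i : n), w ^ m i * v i = w * (v ᵥ* b.1) i

theorem Dg.pow {b : SpecialLinearGroup n k} {w : k} {m : n → ℕ} (h : Dg b w m) (N : ℕ)
    (v : n → k) (i : n) : (w ^ N) ^ m i * v i = w ^ N * (v ᵥ* (b ^ N).1) i := by
  induction N generalizing v with
  | zero => rw [pow_zero, pow_zero, vecMul_one', one_pow]
  | succ N ih =>
    rw [pow_succ b, vecMul_mul']
    have h1 := h (v ᵥ* (b ^ N).1) i
    have h2 := ih v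
    calc (w ^ (N + 1)) ^ m i * v i = w ^ m i * ((w ^ N) ^ m i * v i) := by
          rw [pow_succ, mul_pow]; ring
      _ = w ^ N * (w ^ m i * (v ᵥ* (b ^ N).1) i) := by rw [h2]; ring
      _ = w ^ (N + 1) * ((v ᵥ* (b ^ N).1) ᵥ* b.1) i := by rw [h1]; ring

theorem li_open' : IsOpen {v : Fin j → n → k | LinearIndependent k v} := by
  have e : {v : Fin j → n → k | LinearIndependent k v} =
      ⋃ I : Fin j → n, {v | mn I v ≠ 0} := by
    ext v
    rw [mem_iUnion]
    exact li_iff
  rw [e]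
  exact isOpen_iUnion fun I => isOpen_ne_fun (mn_cont I) continuous_const

/-- **contraction in the Grassmannian** -/
theorem contr_act {b : SpecialLinearGroup n k} {w : k} (hw : ‖w‖ < 1) (hw0 : w ≠ 0)
    {m : n → ℕ} (hb : Dg b w m) (A : Fin j → n) (hA : ∀ a, m (A a) = 0) (L₀ : Gr k n j)
    (hL₀ : ∀ x : n → k, (∀ i, m i ≠ 0 → x i = 0) → x ∈ L₀.1) {D : Set (Gr k n j)}
    (hD : IsCompact D) (hDo : ∀ L ∈ D, ∀ x ∈ L.1, (∀ a, x (A a) = 0) → x = 0)
    {U : Set (Gr k n j)} (hU : U ∈ 𝓝 L₀) :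
    ∀ᶠ N : ℕ in atTop, ∀ L ∈ D, actG (b ^ N) L ∈ U := by
  obtain ⟨U', hU', hU'o, hU'y⟩ := mem_nhds_iff.1 hU
  have key : ∀ᶠ s : k in 𝓝 0, ∀ L ∈ D, ∀ N : ℕ, w ^ N = s → actG (b ^ N) L ∈ U := by
    refine hD.eventually_forall_of_forall_eventually fun L hL => ?_
    obtain ⟨v, rfl⟩ := sp_surj L
    have hv0 : mn A v.1 ≠ 0 := by
      intro h0
      unfold mn at h0
      obtain ⟨c, hc, hc0⟩ := Matrix.exists_vecMul_eq_zero_iff.2 h0
      have h1 : (∑ b, c b • v.1 b) = 0 := by
        refine hDo _ hL _ ?_ ?_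
        · exact Submodule.sum_mem _ fun b _ => Submodule.smul_mem _ _
            (Submodule.subset_span ⟨b, rfl⟩)
        · intro a
          have h2 := congrFun hc0 a
          rw [Matrix.vecMul, dotProduct] at h2
          simpa [Finset.sum_apply] using h2
      apply hc
      funext b
      exact (Fintype.linearIndependent_iff.1 v.2) c h1 b
    obtain ⟨O, hO⟩ : ∃ O : Set (Fin j → n → k), O =
        (fun x : Fr k n j => x.1) '' (sp ⁻¹' U') := ⟨_, rfl⟩
    have hOo : IsOpen O := by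
      rw [hO]
      exact (li_open' (k := k) (n := n) (j := j)).isOpenMap_subtype_val _
        (hU'o.preimage sp_cont)
    have hg0 : ge m 0 v.1 ∈ O := by
      have e1 : mn A (ge m 0 v.1) = mn A v.1 := by
        unfold mn
        congr 1
        ext b a
        change (0 : k) ^ m (A a) * v.1 b (A a) = v.1 b (A a)
        rw [hA, pow_zero, one_mul]
      have hli : LinearIndependent k (ge m 0 v.1) := li_of_mn (by rw [e1]; exact hv0)
      rw [hO]
      refine ⟨⟨ge m 0 v.1, hli⟩, ?_, rfl⟩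
      change sp (⟨ge m 0 v.1, hli⟩ : Fr k n j) ∈ U'
      have e2 : sp (⟨ge m 0 v.1, hli⟩ : Fr k n j) = L₀ := by
        refine H100.Gr.eq_of_le ?_
        change Submodule.span k (range (ge m 0 v.1)) ≤ L₀.1
        rw [Submodule.span_le]
        rintro _ ⟨b, rfl⟩
        refine hL₀ _ fun i hi => ?_
        change (0 : k) ^ m i * _ = 0
        rw [zero_pow hi, zero_mul]
      rw [e2]
      exact hU'y
    have h1 : ∀ᶠ p : k × Fr k n j in 𝓝 (0, v), ge m p.1 p.2.1 ∈ O := by
      have h2 : Continuous fun p : k × Fr k n j => ge m p.1 p.2.1 :=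
        (ge_cont m).comp (continuous_fst.prodMk (fr_val_cont.comp continuous_snd))
      exact (h2.tendsto (0, v)).eventually (hOo.mem_nhds hg0)
    have h3 : IsOpenMap (Prod.map (id : k → k) (sp (k := k) (ι := n) (j := j))) :=
      IsOpenMap.id.prodMap sp_open
    have h4 := h3.image_mem_nhds h1
    filter_upwards [h4]
    rintro _ ⟨⟨s, v'⟩, hv', rfl⟩ N hN
    change w ^ N = s at hN
    change ge m s v'.1 ∈ O at hv'
    change actG (b ^ N) (sp v') ∈ U
    rw [← hN, hO] at hv'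
    obtain ⟨⟨z, hz⟩, hz1, hz2⟩ := hv'
    change z = _ at hz2
    refine hU' ?_
    have e : actG (b ^ N) (sp v') = sp (⟨z, hz⟩ : Fr k n j) := by
      refine (H100.Gr.eq_of_le ?_).symm
      change Submodule.span k (range z) ≤ act (b ^ N) (sp v').1
      rw [Submodule.span_le]
      rintro _ ⟨a, rfl⟩
      have e5 : z a = w ^ N • (v'.1 a ᵥ* (b ^ N).1) := by
        rw [hz2]
        funext i
        exact hb.pow N (v'.1 a) i
      rw [e5]
      exact Submodule.smul_mem _ _ (vecMul_mem_act (Submodule.subset_span ⟨a, rfl⟩))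
    rw [e]
    exact hz1
  have h5 : Tendsto (fun N : ℕ => w ^ N) atTop (𝓝 0) :=
    tendsto_pow_atTop_nhds_zero_of_norm_lt_one hw
  filter_upwards [h5.eventually key] with N hN y hy
  exact hN y hy N rfl

end contr

section form

variable {n : Type} [Fintype n] [DecidableEq n] {k : Type} [NontriviallyNormedField k]
  {σ : k →+* k} {ε : k} {J : Matrix n n k} {j : ℕ}

/-- **contraction, singular spaces**: `g⁻¹` is diagonal (rows) -/
theorem contr_SGr {g : FormGroup σ J} {w : k} (hw : ‖w‖ < 1) (hw0 : w ≠ 0) {m : n → ℕ}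
    (hb : Dg (g.1⁻¹) w m) (A : Fin j → n) (hA : ∀ a, m (A a) = 0) (yp : SGr σ J j)
    (hyp : ∀ x : n → k, (∀ i, m i ≠ 0 → x i = 0) → x ∈ yp.S) {D : Set (SGr σ J j)}
    (hD : IsCompact D) (hDo : ∀ L ∈ D, ∀ x ∈ L.S, (∀ a, x (A a) = 0) → x = 0)
    {U : Set (SGr σ J j)} (hU : U ∈ 𝓝 yp) :
    ∀ᶠ N : ℕ in atTop, ∀ L ∈ D, g ^ N • L ∈ U := by
  obtain ⟨U', hU', hUU⟩ := (mem_nhds_subtype {X : Gr k n j | Sing σ J X.1} yp U).1 hU
  have h1 := contr_act hw hw0 hb A hA yp.1 hyp (hD.image SGr.val_cont)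
    (by rintro _ ⟨L, hL, rfl⟩ x hx hxa; exact hDo L hL x hx hxa) hU'
  filter_upwards [h1] with N hN L hL
  refine hUU ?_
  change (g ^ N • L).1 ∈ U'
  have h2 := hN L.1 ⟨L, hL, rfl⟩
  have e : (g ^ N • L).1 = actG (g.1⁻¹ ^ N) L.1 := by
    refine Subtype.ext ?_
    change act (g ^ N).1⁻¹ L.S = act (g.1⁻¹ ^ N) L.S
    have e2 : (g ^ N).1 = g.1 ^ N := rfl
    rw [e2, inv_pow]
  rw [e]
  exact h2

end form

end Vale.Agent.P092.H631.P2
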