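import Vale.Agent.P092.H370.Po4

/-!
P092, TEAM P, TRACK 2 (and 3), row [P2-PROX] (helper631), part 1: opposite singular `j`-spaces of
any form. `OppS X Y`: no nonzero vector of one of them is orthogonal to the other.
* `trans_opp`: the isometry group is transitive on the opposite pairs;
* `opp_of_left`: one half of the definition is enough.
-/

set_option linter.all false

open Matrix Module Set

namespace Vale.Agent.P092.H631.P2

open Vale.Agent.P092.H303 (FormGroup)
open Vale.Agent.P092.H714.Cl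
open Vale.Agent.P092.H370.Po

section det

variable {k V : Type*} [Field k] [AddCommGroup V] [Module k V] [Module.Finite k V]

/-- unipotent endomorphisms have determinant one -/
theorem det_one_add_nil {N : Module.End k V} (h : IsNilpotent N) : LinearMap.det (1 + N) = 1 := by
  have h1 := LinearMap.eval_charpoly (-N) (1 : k)
  rw [IsNilpotent.charpoly_eq_X_pow_finrank h.neg, Polynomial.eval_pow, Polynomial.eval_X,
    one_pow, map_one, sub_neg_eq_add] at h1
  exact h1.symm

end det

variable {n : Type} [Fintype n] [DecidableEq n] {k : Type} [Field k]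
  {σ : k →+* k} {ε : k} {J : Matrix n n k} {i j : ℕ}

/-- an isometry of determinant one is an element of the group -/
theorem exists_iso {T : (n → k) →ₗ[k] (n → k)} (hdet : LinearMap.det T = 1)
    (hT : ∀ x y, hf σ J (T x) (T y) = hf σ J x y) :
    ∃ g : FormGroup σ J, ∀ x, x ᵥ* g.1.1 = T x := by
  have e : ∀ x, x ᵥ* (LinearMap.toMatrix' T)ᵀ = T x := fun x => by
    rw [vecMul_transpose, LinearMap.toMatrix'_mulVec]
  have hd : (LinearMap.toMatrix' T)ᵀ.det = 1 := by
    rw [det_transpose, LinearMap.det_toMatrix', hdet]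
  refine ⟨⟨⟨(LinearMap.toMatrix' T)ᵀ, hd⟩, mem_formGroup.2 fun x y => ?_⟩, e⟩
  rw [e, e, hT]

theorem perp_symm (hF : Frm σ ε J) {X : Submodule k (n → k)} {y : n → k} :
    y ∈ perp σ J X ↔ ∀ x ∈ X, hf σ J y x = 0 :=
  mem_perp.trans ⟨fun h x hx => hF.symm_zero (h x hx), fun h x hx => hF.symm_zero (h x hx)⟩

/-- the dimension of the orthogonal space, the needed inequality -/
theorem finrank_perp (hF : Frm σ ε J) (X : Submodule k (n → k)) :
    finrank k (n → k) ≤ finrank k X + finrank k (perp σ J X) := by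
  classical
  let b := Module.finBasis k X
  let L : (n → k) →ₗ[k] (Fin (finrank k X) → k) :=
    LinearMap.pi fun i =>
      { toFun := fun v => hf σ J v (b i).1
        map_add' := fun v w => hf_add_left σ J v w _
        map_smul' := fun c v => by rw [hf_smul_left]; rfl }
  have hker : LinearMap.ker L ≤ perp σ J X := by
    intro v hv
    rw [perp_symm hF]
    have hv' : ∀ i, hf σ J v (b i).1 = 0 := fun i => congrFun (LinearMap.mem_ker.1 hv) i
    intro x hx
    have hx' : x = ∑ i, (b.repr ⟨x, hx⟩ i) • (b i).1 := by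
      have h := congrArg Subtype.val (b.sum_repr ⟨x, hx⟩)
      rw [AddSubmonoidClass.coe_finset_sum] at h
      exact h.symm
    have hsum : ∀ (s : Finset (Fin (finrank k X))) (c : Fin (finrank k X) → k),
        hf σ J v (∑ i ∈ s, c i • (b i).1) = 0 := by
      intro s c
      induction s using Finset.induction_on with
      | empty => rw [Finset.sum_empty]; exact hf_zero_right σ J v
      | insert a s ha ih =>
        rw [Finset.sum_insert ha, hf_add_right, hf_smul_right, hv', mul_zero, ih, add_zero]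
    rw [hx']
    exact hsum _ _
  have h1 := LinearMap.finrank_range_add_finrank_ker L
  have h2 : finrank k (LinearMap.range L) ≤ finrank k X := by
    have h := Submodule.finrank_le (LinearMap.range L)
    rwa [finrank_fin_fun] at h
  have h3 := Submodule.finrank_mono hker
  omega

/-- one half of the opposition relation -/
def Op₁ (σ : k →+* k) (J : Matrix n n k) (X Y : Submodule k (n → k)) : Prop :=
  ∀ x ∈ X, (∀ y ∈ Y, hf σ J x y = 0) → x = 0

theorem op₁_disj (hF : Frm σ ε J) {X Y : Submodule k (n → k)} (h : Op₁ σ J X Y) :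
    Disjoint X (perp σ J Y) := by
  rw [Submodule.disjoint_def]
  intro x hx hx'
  exact h x hx ((perp_symm hF).1 hx')

theorem op₁_compl (hF : Frm σ ε J) {X Y : Submodule k (n → k)}
    (hd : finrank k X = finrank k Y) (h : Op₁ σ J X Y) : IsCompl X (perp σ J Y) := by
  refine ⟨op₁_disj hF h, ?_⟩
  rw [codisjoint_iff]
  have h1 := Submodule.finrank_sup_add_finrank_inf_eq X (perp σ J Y)
  rw [(disjoint_iff.1 (op₁_disj hF h)), finrank_bot, add_zero] at h1
  have h2 := finrank_perp hF Y
  refine Submodule.eq_top_of_finrank_eq (le_antisymm (Submodule.finrank_le _) ?_)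
  omega

/-- the relation is symmetric for spaces of the same dimension -/
theorem op₁_symm (hF : Frm σ ε J) {X Y : Submodule k (n → k)}
    (hd : finrank k X = finrank k Y) (h : Op₁ σ J X Y) : Op₁ σ J Y X := by
  intro y hy hyX
  by_contra hy0
  obtain ⟨z, hz⟩ := hF.nondeg y hy0
  have hz' : z ∈ X ⊔ perp σ J Y := by
    rw [(op₁_compl hF hd h).sup_eq_top]
    exact Submodule.mem_top
  obtain ⟨a, ha, b, hb, rfl⟩ := Submodule.mem_sup.1 hz'
  rw [hf_add_right, hyX a ha, mem_perp.1 hb y hy, add_zero] at hz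
  exact hz rfl

/-- **opposite singular spaces** -/
def OppS (X : SGr σ J j) (Y : SGr σ J j) : Prop := Op₁ σ J X.S Y.S

theorem OppS.symm (hF : Frm σ ε J) {X Y : SGr σ J j} (h : OppS X Y) : OppS Y X :=
  op₁_symm hF (X.dim.trans Y.dim.symm) h

theorem OppS.compl (hF : Frm σ ε J) {X Y : SGr σ J j} (h : OppS X Y) :
    IsCompl X.S (perp σ J Y.S) :=
  op₁_compl hF (X.dim.trans Y.dim.symm) h

/-- the group preserves opposition -/
theorem OppS.smul (g : FormGroup σ J) {X Y : SGr σ J j} (h : OppS X Y) :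
    OppS (g • X) (g • Y) := by
  intro x hx hxy
  have hx' : x ᵥ* g.1.1 ∈ X.S := by
    have h1 := vecMul_mem_act (g := g.1) hx
    rwa [smul_S, act_act_inv] at h1
  have h2 : x ᵥ* g.1.1 = 0 := by
    refine h _ hx' fun y hy => ?_
    have h3 : y ᵥ* (g⁻¹).1.1 ∈ (g • Y).S := by
      rw [smul_S]
      exact vecMul_mem_act hy
    have h4 := hxy _ h3
    rw [← mem_formGroup.1 g.2 x] at h4
    have h5 : (y ᵥ* (g⁻¹).1.1) ᵥ* g.1.1 = y := vecMul_inv_cancel y g.1
    rwa [h5] at h4
  have h6 := vecMul_cancel_inv x g.1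
  rw [h2, zero_vecMul] at h6
  exact h6.symm

/-- **Witt**: two spaces opposite to `X` are exchanged by an isometry which fixes `X`
pointwise. -/
theorem exists_fix_opp (hF : Frm σ ε J) {X Y Y' : SGr σ J j} (h : OppS X Y) (h' : OppS X Y') :
    ∃ g : FormGroup σ J, g • X = X ∧ g • Y = Y' := by
  have cX := h.compl hF
  have cX' := h'.compl hF
  have cY := (h.symm hF).compl hF
  have cY' := (h'.symm hF).compl hF
  let pX := Submodule.projection _ _ cX
  let pX' := Submodule.projection _ _ cX'
  let pY := Submodule.projection _ _ cY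
  let pY' := Submodule.projection _ _ cY'
  -- the basic properties
  have mX : ∀ v, pX v ∈ X.S := fun v => Submodule.projection_apply_mem cX v
  have mX' : ∀ v, pX' v ∈ X.S := fun v => Submodule.projection_apply_mem cX' v
  have mY : ∀ v, pY v ∈ Y.S := fun v => Submodule.projection_apply_mem cY v
  have mY' : ∀ v, pY' v ∈ Y'.S := fun v => Submodule.projection_apply_mem cY' v
  have sub_mem : ∀ {p q : Submodule k (n → k)} (c : IsCompl p q) (v : n → k),
      v - Submodule.projection p q c v ∈ q := by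
    intro p q c v
    have h1 : Submodule.projection p q c (v - Submodule.projection p q c v) = 0 := by
      rw [map_sub, Submodule.projection_apply_of_mem_left c
        (Submodule.projection_apply_mem c v), sub_self]
    exact (Submodule.projection_apply_eq_zero_iff c).1 h1
  have oX : ∀ v, ∀ y ∈ Y.S, hf σ J (v - pX v) y = 0 := fun v =>
    (perp_symm hF).1 (sub_mem cX v)
  have oX' : ∀ v, ∀ y ∈ Y'.S, hf σ J (v - pX' v) y = 0 := fun v =>
    (perp_symm hF).1 (sub_mem cX' v)
  have oY : ∀ v, ∀ x ∈ X.S, hf σ J (v - pY v) x = 0 := fun v =>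
    (perp_symm hF).1 (sub_mem cY v)
  have oY' : ∀ v, ∀ x ∈ X.S, hf σ J (v - pY' v) x = 0 := fun v =>
    (perp_symm hF).1 (sub_mem cY' v)
  have sl : ∀ a b c : n → k, hf σ J (a - b) c = hf σ J a c - hf σ J b c := by
    intro a b c
    rw [sub_eq_add_neg, hf_add_left, ← neg_one_smul k b, hf_smul_left]
    ring
  have sr : ∀ a b c : n → k, hf σ J a (b - c) = hf σ J a b - hf σ J a c := by
    intro a b c
    rw [sub_eq_add_neg, hf_add_right, ← neg_one_smul k c, hf_smul_right, map_neg, map_one]
    ring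
  let m : (n → k) →ₗ[k] (n → k) := LinearMap.id - pX - pY
  have hm : ∀ v, m v = v - pX v - pY v := fun v => rfl
  let T : (n → k) →ₗ[k] (n → k) := pX + pY' + (m - pX' ∘ₗ m)
  have hT : ∀ v, T v = pX v + pY' v + (m v - pX' (m v)) := fun v => rfl
  -- the middle part is orthogonal to `X` and `Y`
  have mo : ∀ v, ∀ x ∈ X.S, hf σ J (m v) x = 0 := by
    intro v x hx
    have e : m v = (v - pY v) - pX v := by rw [hm]; abel
    rw [e, sl, oY v x hx, X.sing _ (mX v) x hx, sub_zero]
  have mo' : ∀ v, ∀ y ∈ Y.S, hf σ J (m v) y = 0 := by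
    intro v y hy
    rw [hm, sl, oX v y hy, Y.sing _ (mY v) y hy, sub_zero]
  have mo2 : ∀ v, ∀ x ∈ X.S, hf σ J x (m v) = 0 := fun v x hx => hF.symm_zero (mo v x hx)
  have mo2' : ∀ v, ∀ y ∈ Y.S, hf σ J y (m v) = 0 := fun v y hy => hF.symm_zero (mo' v y hy)
  have eY : ∀ v, ∀ x ∈ X.S, hf σ J (pY' v) x = hf σ J (pY v) x := by
    intro v x hx
    have h1 := oY v x hx
    have h2 := oY' v x hx
    rw [sl] at h1 h2
    linear_combination h1 - h2
  have eY2 : ∀ v, ∀ x ∈ X.S, hf σ J x (pY' v) = hf σ J x (pY v) := by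
    intro v x hx
    rw [hF.herm _ x, hF.herm _ x, eY v x hx]
  have iso : ∀ u v, hf σ J (T u) (T v) = hf σ J u v := by
    intro u v
    have eu : u = pX u + pY u + m u := by rw [hm]; abel
    have ev : v = pX v + pY v + m v := by rw [hm]; abel
    conv_rhs => rw [eu, ev]
    rw [hT, hT]
    have z1 : hf σ J (pX u) (pX v) = 0 := X.sing _ (mX u) _ (mX v)
    have z2 : hf σ J (pY u) (pY v) = 0 := Y.sing _ (mY u) _ (mY v)
    have z3 : hf σ J (pY' u) (pY' v) = 0 := Y'.sing _ (mY' u) _ (mY' v)
    have z4 : hf σ J (pX u) (m v) = 0 := mo2 v _ (mX u)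
    have z5 : hf σ J (m u) (pX v) = 0 := mo u _ (mX v)
    have z6 : hf σ J (pY u) (m v) = 0 := mo2' v _ (mY u)
    have z7 : hf σ J (m u) (pY v) = 0 := mo' u _ (mY v)
    have z8 : hf σ J (m u - pX' (m u)) (pY' v) = 0 := oX' _ _ (mY' v)
    have z9 : hf σ J (pY' u) (m v - pX' (m v)) = 0 := hF.symm_zero (oX' _ _ (mY' u))
    have z10 : hf σ J (pX u) (pX' (m v)) = 0 := X.sing _ (mX u) _ (mX' _)
    have z11 : hf σ J (pX' (m u)) (pX v) = 0 := X.sing _ (mX' _) _ (mX v)
    have z12 : hf σ J (pX' (m u)) (m v) = 0 := mo2 v _ (mX' _)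
    have z13 : hf σ J (m u) (pX' (m v)) = 0 := mo u _ (mX' _)
    have z14 : hf σ J (pX' (m u)) (pX' (m v)) = 0 := X.sing _ (mX' _) _ (mX' _)
    have z15 := eY2 v _ (mX u)
    have z16 := eY u _ (mX v)
    have L : hf σ J (pX u + pY' u + (m u - pX' (m u))) (pX v + pY' v + (m v - pX' (m v))) =
        hf σ J (pX u) (pY v) + hf σ J (pY u) (pX v) + hf σ J (m u) (m v) := by
      rw [hf_add_left, hf_add_left, hf_add_right, hf_add_right, hf_add_right, hf_add_right,
        hf_add_right, hf_add_right, z1, z3, z8, z9, z15, z16, sr, sl, sl, sr, z4, z5, z10, z11,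
        sr, z12, z13, z14]
      ring
    have R : hf σ J (pX u + pY u + m u) (pX v + pY v + m v) =
        hf σ J (pX u) (pY v) + hf σ J (pY u) (pX v) + hf σ J (m u) (m v) := by
      rw [hf_add_left, hf_add_left, hf_add_right, hf_add_right, hf_add_right, hf_add_right,
        hf_add_right, hf_add_right, z1, z2, z4, z5, z6, z7]
      ring
    rw [L, R]
  -- the values
  have vX : ∀ x ∈ X.S, pX x = x := fun x hx => Submodule.projection_apply_of_mem_left cX hx
  have vX' : ∀ x ∈ X.S, pX' x = x := fun x hx => Submodule.projection_apply_of_mem_left cX' hx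
  have vY : ∀ y ∈ Y.S, pY y = y := fun y hy => Submodule.projection_apply_of_mem_left cY hy
  have wY : ∀ v, (∀ x ∈ X.S, hf σ J v x = 0) → pY v = 0 := fun v hv =>
    (Submodule.projection_apply_eq_zero_iff cY).2 ((perp_symm hF).2 hv)
  have wY' : ∀ v, (∀ x ∈ X.S, hf σ J v x = 0) → pY' v = 0 := fun v hv =>
    (Submodule.projection_apply_eq_zero_iff cY').2 ((perp_symm hF).2 hv)
  have wX : ∀ v, (∀ y ∈ Y.S, hf σ J v y = 0) → pX v = 0 := fun v hv =>
    (Submodule.projection_apply_eq_zero_iff cX).2 ((perp_symm hF).2 hv)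
  have TX : ∀ x ∈ X.S, T x = x := by
    intro x hx
    have h1 := wY x fun y hy => X.sing x hx y hy
    have h2 := wY' x fun y hy => X.sing x hx y hy
    rw [hT, hm, vX x hx, h1, h2, sub_self, sub_self, map_zero, add_zero, sub_zero, add_zero]
  have TY : ∀ y ∈ Y.S, T y ∈ Y'.S := by
    intro y hy
    have h1 := wX y fun x hx => Y.sing y hy x hx
    rw [hT, hm, vY y hy, h1, sub_zero, sub_self, map_zero, zero_add, sub_self, add_zero]
    exact mY' y
  -- determinant
  have hN : IsNilpotent (T - 1 : Module.End k (n → k)) := by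
    refine ⟨3, LinearMap.ext fun v => ?_⟩
    have n1 : ∀ v, (T - 1 : Module.End k (n → k)) v = pY' v - pY v - pX' (m v) := by
      intro v
      have e : pX v + pY v + m v = v := by rw [hm]; abel
      have e' : (T - 1 : Module.End k (n → k)) v =
          pX v + pY' v + (m v - pX' (m v)) - (pX v + pY v + m v) := by
        rw [e]; rfl
      rw [e']
      abel
    have n2 : ∀ v, ∀ x ∈ X.S, hf σ J ((T - 1 : Module.End k (n → k)) v) x = 0 := by
      intro v x hx
      rw [n1, sl, sl, eY v x hx, sub_self, X.sing _ (mX' _) x hx, sub_zero]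
    have n3 : ∀ v, (∀ x ∈ X.S, hf σ J v x = 0) →
        (T - 1 : Module.End k (n → k)) v ∈ X.S := by
      intro v hv
      rw [n1, wY v hv, wY' v hv, sub_self, zero_sub]
      exact X.S.neg_mem (mX' _)
    have n4 : ∀ x ∈ X.S, (T - 1 : Module.End k (n → k)) x = 0 := by
      intro x hx
      change T x - x = 0
      rw [TX x hx, sub_self]
    rw [pow_succ, pow_succ, pow_one]
    change (T - 1 : Module.End k (n → k)) ((T - 1 : Module.End k (n → k))
      ((T - 1 : Module.End k (n → k)) v)) = 0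
    exact n4 _ (n3 _ (n2 v))
  have hdet : LinearMap.det T = 1 := by
    have h1 := det_one_add_nil hN
    rwa [add_sub_cancel] at h1
  obtain ⟨g, hg⟩ := exists_iso (T := T) hdet iso
  -- `x ᵥ* g = T x`; the element is `g⁻¹`
  have key : ∀ {Z Z' : SGr σ J j}, (∀ z ∈ Z.S, z ᵥ* g.1.1 ∈ Z'.S) → g⁻¹ • Z = Z' := by
    intro Z Z' hz
    refine SGr.eq_of_le ?_
    intro z hz'
    have h1 : z ∈ act (g⁻¹).1⁻¹ Z.S := hz'
    have h2 : ((g⁻¹).1⁻¹ : SpecialLinearGroup n k) = g.1 := by
      change (g.1⁻¹)⁻¹ = g.1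
      rw [inv_inv]
    rw [h2, mem_act] at h1
    obtain ⟨x, hx, rfl⟩ := h1
    exact hz x hx
  exact ⟨g⁻¹, key fun z hz => by rw [hg, TX z hz]; exact hz,
    key fun z hz => by rw [hg]; exact TY z hz⟩

/-- **the isometry group is transitive on the opposite pairs** -/
theorem trans_opp (hF : Frm σ ε J) {X Y X' Y' : SGr σ J j} (h : OppS X Y) (h' : OppS X' Y') :
    ∃ g : FormGroup σ J, g • X = X' ∧ g • Y = Y' := by
  obtain ⟨g₁, -, hg₁, -⟩ := trans_SGr hF X X'
  have h1 : OppS X' (g₁ • Y) := by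
    have := h.smul g₁
    rwa [hg₁] at this
  obtain ⟨g₂, h2, h3⟩ := exists_fix_opp hF h1 h'
  exact ⟨g₂ * g₁, by rw [mul_smul, hg₁, h2], by rw [mul_smul, h3]⟩

end Vale.Agent.P092.H631.P2
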